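import Vale.Agent.N362.Rnd

/-!
# P362: iterated majority of three runs
-/

namespace Vale.Agent.N362

open Finset P362

variable {n : ℕ}

def bindT : DT (Fin n) → (Bool → DT (Fin n)) → DT (Fin n)
  | .leaf b, f => f b
  | .node i t0 t1, f => .node i (bindT t0 f) (bindT t1 f)

theorem bindT_depth (t : DT (Fin n)) (f : Bool → DT (Fin n)) (m : ℕ) (h : ∀ b, (f b).depth ≤ m) :
    (bindT t f).depth ≤ t.depth + m := by
  induction t with
  | leaf b => simpa [bindT] using h b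
  | node i t0 t1 h0 h1 =>
    simp only [bindT, DT.depth_node]
    omega

theorem bindT_eval (t : DT (Fin n)) (f : Bool → DT (Fin n)) (u : Fin n → Bool) :
    (bindT t f).eval u = (f (t.eval u)).eval u := by
  induction t with
  | leaf b => rfl
  | node i t0 t1 h0 h1 =>
    simp only [bindT, DT.eval_node]
    split_ifs
    exacts [h1, h0]

def maj (a b c : Bool) : Bool := if a = b then a else c

theorem phi_mono {s p : ℝ} (h0 : 0 ≤ s) (hsp : s ≤ p) (h1 : p ≤ 1) :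
    3 * s ^ 2 - 2 * s ^ 3 ≤ 3 * p ^ 2 - 2 * p ^ 3 := by
  have : 3 * p ^ 2 - 2 * p ^ 3 - (3 * s ^ 2 - 2 * s ^ 3) =
      (p - s) * (2 * (p * (1 - p)) + 2 * (s * (1 - s)) + (p * (1 - s) + s * (1 - p))) := by ring
  have h2 : 0 ≤ p := h0.trans hsp
  have h3 : 0 ≤ 1 - p := sub_nonneg.2 h1
  have h4 : 0 ≤ 1 - s := by linarith
  have h5 : 0 ≤ p - s := sub_nonneg.2 hsp
  have : 0 ≤ (p - s) * (2 * (p * (1 - p)) + 2 * (s * (1 - s)) + (p * (1 - s) + s * (1 - p))) := by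
    positivity
  linarith

theorem FinRand.mono {s s' : ℝ} {g : (Fin n → Bool) → Bool} {T : ℕ} (h : FinRand s g T)
    (hs : s' ≤ s) : FinRand s' g T := by
  obtain ⟨K, i, μ, t, h0, h1, ht, h⟩ := h
  exact ⟨K, i, μ, t, h0, h1, ht, fun u => hs.trans (h u)⟩

theorem FinRand.maj {s : ℝ} (hs : 0 ≤ s) {g : (Fin n → Bool) → Bool} {T : ℕ}
    (h : FinRand s g T) : FinRand (3 * s ^ 2 - 2 * s ^ 3) g (3 * T) := by
  obtain ⟨K, _, μ, t, h0, h1, ht, h⟩ := h
  refine ⟨K × K × K, inferInstance, fun k => μ k.1 * (μ k.2.1 * μ k.2.2), fun k =>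
    bindT (t k.1) fun a => bindT (t k.2.1) fun b => bindT (t k.2.2) fun c => .leaf (N362.maj a b c),
    fun k => mul_nonneg (h0 _) (mul_nonneg (h0 _) (h0 _)), ?_, fun k => ?_, fun u => ?_⟩
  · simp only [Fintype.sum_prod_type, ← Finset.mul_sum, h1, mul_one]
  · refine (bindT_depth _ _ (T + T) fun a => (bindT_depth _ _ T fun b =>
      (bindT_depth _ _ 0 fun c => le_rfl).trans (ht _)).trans ?_).trans ?_
    · exact Nat.add_le_add_right (ht _) _
    · have := ht k.1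
      omega
  · let χ : K → ℝ := fun k => if (t k).eval u = g u then 1 else 0
    let p : ℝ := ∑ k, μ k * χ k
    have hp1 : p ≤ 1 := by
      rw [← h1]
      refine Finset.sum_le_sum fun k _ => mul_le_of_le_one_right (h0 k) ?_
      simp only [χ]
      split_ifs <;> norm_num
    refine (phi_mono hs (h u) hp1).trans (le_of_eq ?_)
    have e : ∀ a b c : K, μ a * (μ b * μ c) * (if (bindT (t a) fun a => bindT (t b) fun b =>
        bindT (t c) fun c => .leaf (N362.maj a b c)).eval u = g u then (1 : ℝ) else 0) =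
        (μ a * χ a) * ((μ b * χ b) * μ c) + (μ a * χ a) * (μ b * (μ c * χ c)) +
          μ a * ((μ b * χ b) * (μ c * χ c)) -
          2 * ((μ a * χ a) * ((μ b * χ b) * (μ c * χ c))) := by
      intro a b c
      simp only [bindT_eval, DT.eval_leaf, χ, N362.maj]
      cases (t a).eval u <;> cases (t b).eval u <;> cases (t c).eval u <;> cases g u <;>
        simp <;> ring
    simp only [Fintype.sum_prod_type, e, Finset.sum_sub_distrib, Finset.sum_add_distrib,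
      ← Finset.mul_sum, ← Finset.sum_mul, h1]
    ring

theorem FinRand.iter {γ : ℝ} (hγ : 0 ≤ γ) {g : (Fin n → Bool) → Bool} {T : ℕ}
    (h : FinRand (1 / 2 + γ) g T) (j : ℕ) :
    FinRand (1 / 2 + min (1 / 6) ((13 / 9) ^ j * γ)) g (3 ^ j * T) := by
  induction j with
  | zero => simpa using h.mono (by simp)
  | succ j ih =>
    have h0 : 0 ≤ min (1 / 6 : ℝ) ((13 / 9) ^ j * γ) := le_min (by norm_num) (by positivity)
    have h1 : min (1 / 6 : ℝ) ((13 / 9) ^ j * γ) ≤ 1 / 6 := min_le_left _ _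
    have h2 : min (1 / 6 : ℝ) ((13 / 9) ^ (j + 1) * γ) ≤
        13 / 9 * min (1 / 6 : ℝ) ((13 / 9) ^ j * γ) := by
      rw [mul_min_of_nonneg _ _ (by norm_num), pow_succ]
      exact min_le_min (by norm_num) (le_of_eq (by ring))
    have h3 := ih.maj (by linarith)
    rw [← mul_assoc, ← pow_succ'] at h3
    refine h3.mono ?_
    generalize min (1 / 6 : ℝ) ((13 / 9) ^ j * γ) = m at *
    nlinarith [mul_nonneg h0 (mul_nonneg (sub_nonneg.2 h1) (by linarith : 0 ≤ 1 / 6 + m))]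

/-- a randomized algorithm with advantage `γ` -/
theorem R_le_of_adv {γ : ℝ} (h0 : 0 < γ) (hγ : γ ≤ 1) {g : (Fin n → Bool) → Bool} {T : ℕ}
    (h : FinRand (1 / 2 + γ) g T) : γ ^ 3 * P362.R g ≤ 3 * T := by
  obtain ⟨j, hj1, hj2⟩ := exists_nat_pow_near (x := 1 / γ) (by rw [le_div_iff₀ h0]; linarith)
    (by norm_num : (1 : ℝ) < 13 / 9)
  rw [le_div_iff₀ h0] at hj1
  rw [div_lt_iff₀ h0] at hj2
  have h1 := h.iter h0.le (j + 1)
  rw [min_eq_left (by linarith)] at h1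
  have h3 := R_le_of_finRand (h1.mono (by norm_num))
  have h4 : (P362.R g : ℝ) ≤ 3 ^ (j + 1) * T := by exact_mod_cast h3
  have h5 : γ ^ 3 * 3 ^ j ≤ 1 := by
    calc γ ^ 3 * 3 ^ j ≤ γ ^ 3 * ((13 / 9) ^ 3) ^ j := by gcongr; norm_num
      _ = ((13 / 9) ^ j * γ) ^ 3 := by rw [← pow_mul, mul_comm 3 j, pow_mul]; ring
      _ ≤ 1 := pow_le_one₀ (by positivity) hj1
  calc γ ^ 3 * P362.R g ≤ γ ^ 3 * (3 ^ (j + 1) * T) := by gcongr
    _ = (γ ^ 3 * 3 ^ j) * (3 * T) := by ring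
    _ ≤ 1 * (3 * T) := by gcongr
    _ = 3 * T := one_mul _

/-! ### quantum algorithms -/

def QA (s : ℝ) (g : (Fin n → Bool) → Bool) (T : ℕ) : Prop :=
  ∃ μ : (Fin n → Bool) → Bool → ℝ, Ach T μ ∧ ∀ u, s ≤ μ u (g u)

theorem QA.mono {s s' : ℝ} {g : (Fin n → Bool) → Bool} {T : ℕ} (h : QA s g T) (hs : s' ≤ s) :
    QA s' g T := by
  obtain ⟨μ, h0, h⟩ := h
  exact ⟨μ, h0, fun u => hs.trans (h u)⟩

theorem QA.maj {s : ℝ} (hs : 0 ≤ s) {g : (Fin n → Bool) → Bool} {T : ℕ} (h : QA s g T) :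
    QA (3 * s ^ 2 - 2 * s ^ 3) g (3 * T) := by
  obtain ⟨μ, hμ, h⟩ := h
  have h1 := hμ.bind fun a => hμ.bind fun b => hμ.map fun c => N362.maj a b c
  refine ⟨_, h1.mono (by omega), fun u => ?_⟩
  have h2 := hμ.sum_eq_one u
  have h3 := hμ.nonneg u true
  have h4 := hμ.nonneg u false
  have h5 := h u
  rw [Fintype.sum_bool] at h2
  have hp1 : μ u (g u) ≤ 1 := by cases g u <;> linarith
  refine (phi_mono hs h5 hp1).trans (le_of_eq ?_)
  simp only [Fintype.sum_bool, N362.maj]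
  cases g u
  · have : μ u true = 1 - μ u false := by linarith
    simp only [this]
    simp
    ring
  · have : μ u false = 1 - μ u true := by linarith
    simp only [this]
    simp
    ring

theorem QA.iter {g : (Fin n → Bool) → Bool} {T : ℕ} (h : QA (2 / 3) g T) (j : ℕ) :
    QA (1 - (7 / 9) ^ 2 ^ j / 3) g (3 ^ (j + 1) * T) := by
  induction j with
  | zero => exact (h.maj (by norm_num)).mono (by norm_num)
  | succ j ih =>
    have h0 : (0 : ℝ) ≤ (7 / 9) ^ 2 ^ j := by positivity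
    have h1 : (7 / 9 : ℝ) ^ 2 ^ j ≤ 1 := pow_le_one₀ (by norm_num) (by norm_num)
    have h3 := ih.maj (by linarith)
    rw [← mul_assoc, ← pow_succ'] at h3
    refine h3.mono ?_
    rw [pow_succ 2 j, pow_mul]
    generalize (7 / 9 : ℝ) ^ 2 ^ j = m at *
    nlinarith [pow_nonneg h0 3]

/-- error `2 ^ (-e)` -/
theorem QA.small {e : ℝ} (he : 1 ≤ e) {g : (Fin n → Bool) → Bool} {T : ℕ} (h : QA (2 / 3) g T) :
    ∃ k : ℕ, (k : ℝ) ≤ 144 * e ^ 2 ∧ QA (1 - 2 ^ (-e)) g (k * T) := by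
  obtain ⟨j, hj1, hj2⟩ := exists_nat_pow_near (x := 3 * e) (by linarith) (by norm_num : (1 : ℝ) < 2)
  refine ⟨3 ^ (j + 2), ?_, (h.iter (j + 1)).mono ?_⟩
  · push_cast
    calc (3 : ℝ) ^ (j + 2) ≤ 4 ^ (j + 2) := pow_le_pow_left₀ (by norm_num) (by norm_num) _
      _ = 16 * (2 ^ j) ^ 2 := by rw [← pow_mul, mul_comm j 2, pow_mul, pow_add]; norm_num; ring
      _ ≤ 16 * (3 * e) ^ 2 := by gcongr
      _ = 144 * e ^ 2 := by ring
  · have h1 : (7 / 9 : ℝ) ^ 2 ^ (j + 1) ≤ 2 ^ (-e) := by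
      have h2 : (7 / 9 : ℝ) ≤ 2 ^ (-(1 / 3 : ℝ)) := by
        refine le_of_pow_le_pow_left₀ (n := 3) (by norm_num) (by positivity) ?_
        rw [← Real.rpow_natCast ((2 : ℝ) ^ _), ← Real.rpow_mul (by norm_num)]
        norm_num
      refine (pow_le_pow_left₀ (by norm_num) h2 _).trans ?_
      rw [← Real.rpow_natCast ((2 : ℝ) ^ _), ← Real.rpow_mul (by norm_num)]
      refine Real.rpow_le_rpow_of_exponent_le (by norm_num) ?_
      push_cast
      linarith
    have h0 : (0 : ℝ) ≤ (7 / 9) ^ 2 ^ (j + 1) := by positivity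
    linarith

end Vale.Agent.N362
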