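import Mathlib.Analysis.SpecialFunctions.Log.Base
import Mathlib.Analysis.SpecialFunctions.Pow.Real
import Mathlib.Data.ZMod.Basic
import Mathlib.LinearAlgebra.UnitaryGroup
import Mathlib.MeasureTheory.Integral.Lebesgue.Basic
import Mathlib.MeasureTheory.Measure.Typeclasses.Probability

/-!
# P362: query complexity of total functions on words over an alphabet

Inputs are words `x : Fin n → G`, outputs lie in any set `Γ`. Bits are the case `G = Γ = ZMod 2`.
-/

open MeasureTheory

namespace Vale.Agent.N362

/-- A deterministic query algorithm: from the list of the answers received so far it chooses the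
next position to query, or it stops with an output. -/
def Strategy (n : ℕ) (G Γ : Type) : Type := List G → Fin n ⊕ Γ

variable {n : ℕ} {G Γ : Type}

/-- The answers received on the input `x` in the first `t` rounds (none after the stop). -/
def answers (A : Strategy n G Γ) (x : Fin n → G) (t : ℕ) : List G :=
  (fun l => (A l).elim (fun i => l ++ [x i]) fun _ => l)^[t] []

/-- On the input `x` the algorithm has stopped after at most `T` queries, with output `y`. -/
def Outputs (A : Strategy n G Γ) (x : Fin n → G) (T : ℕ) (y : Γ) : Prop :=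
  A (answers A x T) = Sum.inr y

/-- The number of queries made on the input `x`. -/
noncomputable def cost (A : Strategy n G Γ) (x : Fin n → G) : ℕ :=
  sInf {T | ∃ y, Outputs A x T y}

/-- Some deterministic algorithm outputs `f x` after at most `T` queries, for every `x`. -/
def DetComputes (f : (Fin n → G) → Γ) (T : ℕ) : Prop :=
  ∃ A : Strategy n G Γ, ∀ x, Outputs A x T (f x)

/-- Some randomized algorithm (a probability space of seeds `ω`, a deterministic algorithm for each
seed) stops after at most `T` queries for all inputs and seeds, and on every input `x` outputs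
`f x` with probability at least `s`. -/
def RandComputes (s : ℝ) (f : (Fin n → G) → Γ) (T : ℕ) : Prop :=
  ∃ (Ω : Type) (_ : MeasurableSpace Ω) (P : Measure Ω) (A : Ω → Strategy n G Γ),
    IsProbabilityMeasure P ∧ ∀ x, (∀ ω, ∃ y, Outputs (A ω) x T y) ∧
      MeasurableSet {ω | Outputs (A ω) x T (f x)} ∧ s ≤ P.real {ω | Outputs (A ω) x T (f x)}

/-- Some randomized algorithm outputs `f x` for all inputs and seeds, and on every input the
expected number of queries is at most `T`. -/
def ZeroComputes (f : (Fin n → G) → Γ) (T : ℕ) : Prop :=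
  ∃ (Ω : Type) (_ : MeasurableSpace Ω) (P : Measure Ω) (A : Ω → Strategy n G Γ),
    IsProbabilityMeasure P ∧ ∀ x, (∀ ω, ∃ t, Outputs (A ω) x t (f x)) ∧
      Measurable (fun ω => cost (A ω) x) ∧ ∫⁻ ω, cost (A ω) x ∂P ≤ T

/-- Deterministic query complexity. -/
noncomputable def D (f : (Fin n → G) → Γ) : ℕ := sInf {T | DetComputes f T}

/-- Randomized query complexity, success probability `s`. -/
noncomputable def R (s : ℝ) (f : (Fin n → G) → Γ) : ℕ := sInf {T | RandComputes s f T}

/-- Zero-error randomized query complexity. -/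
noncomputable def R0 (f : (Fin n → G) → Γ) : ℕ := sInf {T | ZeroComputes f T}

/-- The state `U T (O (T-1)) ⋯ (O 1) (U 1) (O 0) (U 0) |w⟩`. -/
noncomputable def state {β : Type} [Fintype β] [DecidableEq β] (O U : ℕ → Matrix β β ℂ) (w : β)
    (T : ℕ) : β → ℂ :=
  Nat.rec ((U 0).mulVec (Pi.single w 1)) (fun t ψ => (U (t + 1)).mulVec ((O t).mulVec ψ)) T

open Classical in
/-- With the queries `O x t` on the input `x`, some unitaries `U t`, basis state `w` and reading
`out` of a final measurement in the basis, all independent of the input, give `f x` after `T`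
queries with probability at least `s`, on every input `x`. -/
def Solves {β : Type} [Fintype β] [DecidableEq β] (O : (Fin n → G) → ℕ → Matrix β β ℂ) (s : ℝ)
    (f : (Fin n → G) → Γ) (T : ℕ) : Prop :=
  ∃ (U : ℕ → Matrix β β ℂ) (w : β) (out : β → Γ), (∀ t, U t ∈ Matrix.unitaryGroup β ℂ) ∧
    ∀ x, s ≤ ∑ p, if out p = f x then ‖state (O x) U w T p‖ ^ 2 else 0

/-- The query `|i⟩|φ⟩ ↦ |i⟩ V i (x i) |φ⟩` as a matrix. -/
def block {W : Type} (V : Fin n → G → Matrix W W ℂ) (x : Fin n → G) :
    Matrix (Fin n × W) (Fin n × W) ℂ :=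
  fun p q => if p.1 = q.1 then V p.1 (x p.1) p.2 q.2 else 0

variable [AddGroup G] [Fintype G] [DecidableEq G]

/-- The query `|i, b, z⟩ ↦ |i, b + x i, z⟩` as a matrix; `z` ranges over the workspace `W`. -/
def oracle (W : Type) [DecidableEq W] (x : Fin n → G) :
    Matrix (Fin n × G × W) (Fin n × G × W) ℂ :=
  fun p q => if p = (q.1, q.2.1 + x q.1, q.2.2) then 1 else 0

/-- Some quantum algorithm with a finite workspace and `T` standard queries outputs `f x` with
probability at least `s` on every input `x`. -/
def QuantComputes (s : ℝ) (f : (Fin n → G) → Γ) (T : ℕ) : Prop :=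
  ∃ (W : Type) (_ : Fintype W) (_ : DecidableEq W), Solves (fun x _ => oracle W x) s f T

/-- Quantum query complexity, success probability `s`. -/
noncomputable def Q (s : ℝ) (f : (Fin n → G) → Γ) : ℕ := sInf {T | QuantComputes s f T}

/-- The `α ≥ 0` such that `M f ≤ C (1 + N f) ^ α` for some `C`, all `n ≥ 1` and all total
`f : G ^ n → Γ`. -/
def exponents (G Γ : Type) (M N : (n : ℕ) → ((Fin n → G) → Γ) → ℕ) : Set ℝ :=
  {α | 0 ≤ α ∧ ∃ C : ℝ, ∀ n : ℕ, 1 ≤ n → ∀ f : (Fin n → G) → Γ,
    (M n f : ℝ) ≤ C * (1 + (N n f : ℝ)) ^ α}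

/-- The exponent of the problem: bits, success probability `2/3`. -/
noncomputable def alphaTot : ℝ :=
  sInf (exponents (ZMod 2) (ZMod 2) (fun _ => R (2 / 3)) fun _ => Q (2 / 3))

/-- The subpolynomial factor `2 ^ √(log₂ q)`. -/
noncomputable def slack (q : ℕ) : ℝ := 2 ^ √(Real.logb 2 q)

end Vale.Agent.N362
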