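import Vale.Agent.N362.Defs
import Vale.Agent.P362.H32.Xor

/-!
# P362: deterministic algorithms over an alphabet, depth at most degree times block sensitivity
-/

namespace Vale.Agent.N362

open Finset

variable {n : ℕ} {G Γ : Type}

theorem answers_succ (A : Strategy n G Γ) (x : Fin n → G) (t : ℕ) :
    answers A x (t + 1) =
      (A (answers A x t)).elim (fun i => answers A x t ++ [x i]) fun _ => answers A x t :=
  Function.iterate_succ_apply' _ _ _

theorem state_zero {β : Type} [Fintype β] [DecidableEq β] (O U : ℕ → Matrix β β ℂ) (w : β) :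
    state O U w 0 = (U 0).mulVec (Pi.single w 1) := rfl

theorem state_succ {β : Type} [Fintype β] [DecidableEq β] (O U : ℕ → Matrix β β ℂ) (w : β)
    (t : ℕ) : state O U w (t + 1) = (U (t + 1)).mulVec ((O t).mulVec (state O U w t)) := rfl

theorem Outputs.succ {A : Strategy n G Γ} {x : Fin n → G} {T : ℕ} {y : Γ}
    (h : Outputs A x T y) : Outputs A x (T + 1) y := by
  unfold Outputs at h ⊢
  rw [answers_succ, h]
  exact h

theorem Outputs.mono {A : Strategy n G Γ} {x : Fin n → G} {T T' : ℕ} {y : Γ}
    (h : Outputs A x T y) (hT : T ≤ T') : Outputs A x T' y := by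
  induction T', hT using Nat.le_induction with
  | base => exact h
  | succ T' _ ih => exact ih.succ

theorem Outputs.unique {A : Strategy n G Γ} {x : Fin n → G} {T T' : ℕ} {y y' : Γ}
    (h : Outputs A x T y) (h' : Outputs A x T' y') : y = y' := by
  have h1 := h.mono (le_max_left T T')
  have h2 := h'.mono (le_max_right T T')
  unfold Outputs at h1 h2
  rw [h1] at h2
  exact Sum.inr_injective h2

theorem DetComputes.mono {f : (Fin n → G) → Γ} {T T' : ℕ} (h : DetComputes f T) (hT : T ≤ T') :
    DetComputes f T' := by
  obtain ⟨A, hA⟩ := h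
  exact ⟨A, fun x => (hA x).mono hT⟩

theorem det_const (y : Γ) (T : ℕ) : DetComputes (fun _ : Fin n → G => y) T :=
  ⟨fun _ => Sum.inr y, fun _ => rfl⟩

/-- query the position `j`, then go on with `B` of the answer -/
def consS (j : Fin n) (B : G → Strategy n G Γ) : Strategy n G Γ
  | [] => Sum.inl j
  | g :: l => B g l

theorem answers_consS (j : Fin n) (B : G → Strategy n G Γ) (x : Fin n → G) (t : ℕ) :
    answers (consS j B) x (t + 1) = x j :: answers (B (x j)) x t := by
  induction t with
  | zero => rfl
  | succ t ih =>
    rw [answers_succ, ih, answers_succ]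
    change (B (x j) (answers (B (x j)) x t)).elim _ _ = _
    cases B (x j) (answers (B (x j)) x t) <;> rfl

theorem det_query (j : Fin n) {T : ℕ} (F : G → (Fin n → G) → Γ)
    (h : ∀ g, DetComputes (F g) T) : DetComputes (fun x => F (x j) x) (T + 1) := by
  choose B hB using h
  refine ⟨consS j B, fun x => ?_⟩
  unfold Outputs
  rw [answers_consS]
  exact hB (x j) x

/-- query all the positions of `M` -/
theorem det_queries (M : Finset (Fin n)) (a0 : Fin n → G) : ∀ (T : ℕ) (f : (Fin n → G) → Γ),
    (∀ a, DetComputes (fun y => f (M.piecewise a y)) T) → DetComputes f (M.card + T) := by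
  induction M using Finset.induction_on with
  | empty =>
    intro T f h
    simpa using h a0
  | insert j M hj ih =>
    intro T f h
    have hb : ∀ g : G, DetComputes (fun y => f (Function.update y j g)) (M.card + T) := by
      intro g
      apply ih
      intro a
      have := h (Function.update a j g)
      convert this using 3 with y
      funext i
      by_cases hij : i = j
      · subst hij
        simp [Finset.piecewise, hj]
      · simp [Finset.piecewise, hij]
    have := det_query j (fun g y => f (Function.update y j g)) hb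
    simp only [Function.update_eq_self] at this
    rw [Finset.card_insert_of_notMem hj]
    exact this.mono (by omega)

theorem det_n [Nonempty G] (f : (Fin n → G) → Γ) : DetComputes f n := by
  have := det_queries (Finset.univ : Finset (Fin n)) (Classical.arbitrary _) 0 f fun a => by
    simp only [Finset.piecewise_univ]
    exact det_const _ _
  simpa using this

/-! ### degree and block sensitivity -/

open Classical in
/-- the mixed difference of the indicator of `f = γ` in the directions `S`, between `a` and `b` -/
noncomputable def coefG (f : (Fin n → G) → Γ) (γ : Γ) (S : Finset (Fin n)) (a b : Fin n → G) : ℤ :=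
  ∑ T ∈ S.powerset, (-1) ^ T.card * (if f (T.piecewise b a) = γ then 1 else 0)

def DegG (f : (Fin n → G) → Γ) (d : ℕ) : Prop :=
  ∀ γ (S : Finset (Fin n)) a b, d < S.card → coefG f γ S a b = 0

def BsG (f : (Fin n → G) → Γ) (k : ℕ) : Prop :=
  ∀ (a b : Fin n → G) (m : ℕ) (B : Fin m → Finset (Fin n)),
    Pairwise (Function.onFun Disjoint B) → (∀ j, f ((B j).piecewise b a) ≠ f a) → m ≤ k

theorem coefG_insert (f : (Fin n → G) → Γ) (γ : Γ) (S : Finset (Fin n)) (a b : Fin n → G)
    (j : Fin n) (hj : j ∉ S) (v : G) :
    coefG f γ (insert j S) a (Function.update b j v) =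
      coefG f γ S a b - coefG f γ S (Function.update a j v) b := by
  classical
  unfold coefG
  rw [Finset.sum_powerset_insert hj, sub_eq_add_neg, ← Finset.sum_neg_distrib]
  congr 1
  · refine Finset.sum_congr rfl fun T hT => ?_
    have hjT : j ∉ T := fun h => hj (Finset.mem_powerset.1 hT h)
    have : T.piecewise (Function.update b j v) a = T.piecewise b a := by
      funext i
      by_cases hi : i ∈ T
      · have : i ≠ j := fun h => hjT (h ▸ hi)
        simp [Finset.piecewise, hi, this]
      · simp [Finset.piecewise, hi]
    rw [this]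
  · refine Finset.sum_congr rfl fun T hT => ?_
    have hjT : j ∉ T := fun h => hj (Finset.mem_powerset.1 hT h)
    have : (insert j T).piecewise (Function.update b j v) a =
        T.piecewise b (Function.update a j v) := by
      funext i
      by_cases hij : i = j
      · subst hij
        simp [Finset.piecewise, hjT]
      · simp [Finset.piecewise, hij]
    rw [this, Finset.card_insert_of_notMem hjT, pow_succ]
    ring

/-- a nonconstant function has a small set of positions on whose fibres it is never constant -/
theorem exists_max (f : (Fin n → G) → Γ) (d : ℕ) (hd : DegG f d) (hf : ∃ x y, f x ≠ f y) :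
    ∃ S : Finset (Fin n), S.card ≤ d ∧ ∀ x, ∃ y, f (S.piecewise y x) ≠ f x := by
  classical
  have upd : ∀ {α : Type} (g : (Fin n → G) → α) (S : Finset (Fin n)),
      (∀ z j v, j ∉ S → g (Function.update z j v) = g z) →
      ∀ z z', g (S.piecewise z z') = g z := by
    intro α g S h z z'
    have key : ∀ T : Finset (Fin n), Disjoint T S → g (T.piecewise z' z) = g z := by
      intro T
      induction T using Finset.induction_on with
      | empty => simp
      | insert j T hj ih =>
        intro hd
        rw [Finset.disjoint_insert_left] at hd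
        rw [Finset.piecewise_insert, h _ _ _ hd.1, ih hd.2]
    rw [← Finset.piecewise_compl]
    exact key _ disjoint_compl_left
  have hne : ∃ (j : Fin n) (γ : Γ) (a b : Fin n → G), coefG f γ {j} a b ≠ 0 := by
    by_contra hcon
    push Not at hcon
    obtain ⟨x, y, hxy⟩ := hf
    apply hxy
    have := upd f ∅ (fun z j v _ => ?_) x y
    · rw [Finset.piecewise_empty] at this
      exact this.symm
    · have h1 := coefG_insert f (f z) ∅ z z j (by simp) v
      rw [show (insert j ∅ : Finset (Fin n)) = {j} from rfl, hcon] at h1
      simp only [coefG, Finset.powerset_empty, Finset.sum_singleton, Finset.card_empty, pow_zero,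
        one_mul, Finset.piecewise_empty, if_true] at h1
      by_contra h2
      rw [if_neg h2] at h1
      omega
  obtain ⟨j, γ0, a0, b0, h0⟩ := hne
  let P : Finset (Finset (Fin n)) := Finset.univ.filter fun S => ∃ γ a b, coefG f γ S a b ≠ 0
  have hP : ∀ S, S ∈ P ↔ ∃ γ a b, coefG f γ S a b ≠ 0 := fun S => by simp [P]
  obtain ⟨S, hS, hmax⟩ := Finset.exists_max_image P Finset.card ⟨{j}, (hP _).2 ⟨γ0, a0, b0, h0⟩⟩
  obtain ⟨γ, a, b, hab⟩ := (hP S).1 hS
  have hSne : S.Nonempty := by
    rw [← Finset.card_pos]
    have := hmax {j} ((hP _).2 ⟨γ0, a0, b0, h0⟩)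
    rw [Finset.card_singleton] at this
    omega
  refine ⟨S, ?_, fun x => ?_⟩
  · by_contra hcon
    exact hab (hd γ S a b (by omega))
  · have h1 : coefG f γ S (S.piecewise a x) b = coefG f γ S a b := by
      refine upd (fun z => coefG f γ S z b) S (fun z i v hi => ?_) a x
      have h2 := coefG_insert f γ S z b i hi v
      have h3 : coefG f γ (insert i S) z (Function.update b i v) = 0 := by
        by_contra h3
        have := hmax _ ((hP _).2 ⟨γ, z, _, h3⟩)
        rw [Finset.card_insert_of_notMem hi] at this
        omega
      omega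
    by_contra hcon
    push Not at hcon
    apply hab
    rw [← h1]
    unfold coefG
    have h4 : ∀ T ∈ S.powerset, (-1 : ℤ) ^ T.card *
        (if f (T.piecewise b (S.piecewise a x)) = γ then 1 else 0) =
        (-1) ^ T.card * (if f x = γ then 1 else 0) := by
      intro T hT
      have h5 : T.piecewise b (S.piecewise a x) = S.piecewise (T.piecewise b a) x := by
        funext i
        by_cases hi : i ∈ T
        · simp [Finset.piecewise, hi, Finset.mem_powerset.1 hT hi]
        · simp [Finset.piecewise, hi]
      rw [h5, hcon]
    rw [Finset.sum_congr rfl h4, ← Finset.sum_mul,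
      Finset.sum_powerset_neg_one_pow_card_of_nonempty hSne, zero_mul]

theorem DegG.restrict {f : (Fin n → G) → Γ} {d : ℕ} (hd : DegG f d) (M : Finset (Fin n))
    (c : Fin n → G) : DegG (fun y => f (M.piecewise c y)) d := by
  classical
  intro γ S a b hS
  rw [← hd γ S (M.piecewise c a) (M.piecewise c b) hS]
  unfold coefG
  refine Finset.sum_congr rfl fun T _ => ?_
  have : M.piecewise c (T.piecewise b a) = T.piecewise (M.piecewise c b) (M.piecewise c a) := by
    funext i
    by_cases hi : i ∈ T <;> by_cases hM : i ∈ M <;> simp [Finset.piecewise, hi, hM]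
  simp only [this]

theorem BsG.restrict {f : (Fin n → G) → Γ} {k : ℕ} (hb : BsG f (k + 1)) (S : Finset (Fin n))
    (hS : ∀ x, ∃ y, f (S.piecewise y x) ≠ f x) (c : Fin n → G) :
    BsG (fun y => f (S.piecewise c y)) k := by
  intro a b m B hdis hsens
  obtain ⟨y, hy⟩ := hS (S.piecewise c a)
  have := hb (S.piecewise c a) (S.piecewise y b) (m + 1) (Fin.cons S fun j => B j \ S) ?_ ?_
  · omega
  · intro i j hij
    rcases Fin.eq_zero_or_eq_succ i with rfl | ⟨i, rfl⟩ <;>
      rcases Fin.eq_zero_or_eq_succ j with rfl | ⟨j, rfl⟩
    · exact absurd rfl hij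
    · simp only [Function.onFun, Fin.cons_zero, Fin.cons_succ]
      exact Finset.disjoint_sdiff
    · simp only [Function.onFun, Fin.cons_zero, Fin.cons_succ]
      exact Finset.sdiff_disjoint
    · simp only [Function.onFun, Fin.cons_succ]
      exact (hdis fun h => hij (congrArg _ h)).mono Finset.sdiff_subset Finset.sdiff_subset
  · intro j
    rcases Fin.eq_zero_or_eq_succ j with rfl | ⟨j, rfl⟩
    · change f (S.piecewise (S.piecewise y b) (S.piecewise c a)) ≠ _
      have : S.piecewise (S.piecewise y b) (S.piecewise c a) = S.piecewise y (S.piecewise c a) := by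
        funext i
        by_cases hi : i ∈ S <;> simp [Finset.piecewise, hi]
      rw [this]
      exact hy
    · change f ((B j \ S).piecewise (S.piecewise y b) (S.piecewise c a)) ≠ _
      have : (B j \ S).piecewise (S.piecewise y b) (S.piecewise c a) =
          S.piecewise c ((B j).piecewise b a) := by
        funext i
        by_cases hi : i ∈ S <;> by_cases hB : i ∈ B j <;> simp [Finset.piecewise, hi, hB]
      rw [this]
      exact hsens j

/-- `D ≤ deg * bs` over any alphabet, for any set of outputs -/
theorem det_of_deg_bs (a0 : Fin n → G) (d : ℕ) : ∀ (k : ℕ) (f : (Fin n → G) → Γ),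
    DegG f d → BsG f k → DetComputes f (d * k) := by
  intro k
  induction k with
  | zero =>
    intro f _ hb
    have : f = fun _ => f a0 := by
      funext x
      by_contra hx
      have := hb a0 x 1 (fun _ => Finset.univ) (fun i j hij => absurd (Subsingleton.elim i j) hij)
        fun _ => by simpa using hx
      omega
    rw [this]
    exact det_const _ _
  | succ k ih =>
    intro f hd hb
    by_cases hf : ∃ x y, f x ≠ f y
    · obtain ⟨S, hSd, hS⟩ := exists_max f d hd hf
      refine (det_queries S a0 (d * k) f fun a =>
        ih _ (hd.restrict S a) (hb.restrict S hS a)).mono ?_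
      rw [Nat.mul_succ]
      omega
    · push Not at hf
      have : f = fun _ => f a0 := funext fun x => hf x a0
      rw [this]
      exact det_const _ _

open Classical in
/-- query weights give a deterministic algorithm -/
theorem det_of_weights (a0 : Fin n → G) (f : (Fin n → G) → Γ) (w : (Fin n → G) → Fin n → ℝ)
    (hw0 : ∀ x i, 0 ≤ w x i) (T c : ℝ) (hT : ∀ x, ∑ i, w x i ≤ T) (hc : 0 < c)
    (h : ∀ x y, f x ≠ f y →
      c ≤ ∑ i ∈ Finset.univ.filter (fun i => x i ≠ y i), Real.sqrt (w x i * w y i)) :
    ∃ m : ℕ, (m : ℝ) ≤ (T / c) ^ 4 ∧ DetComputes f m := by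
  have hTS : ∀ x (S : Finset (Fin n)), ∑ i ∈ S, w x i ≤ T := fun x S =>
    (Finset.sum_le_sum_of_subset_of_nonneg (Finset.subset_univ S) fun i _ _ => hw0 x i).trans (hT x)
  have hT0 : 0 ≤ T := by simpa using hTS a0 ∅
  let d : ℕ := ⌊(T / c) ^ 2⌋₊
  have hdeg : DegG f d := by
    intro γ S a b hS
    by_contra hz
    obtain ⟨m, hm⟩ : ∃ m, S.card = m + 1 := ⟨S.card - 1, by omega⟩
    let mix : (Fin n → Bool) → Fin n → G := fun u i => if u i then b i else a i
    have hcoef : P362.UB.coef (fun u => decide (f (mix u) = γ)) S (fun _ => false) ≠ 0 := by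
      convert hz using 1
      unfold P362.UB.coef coefG
      refine Finset.sum_congr rfl fun T' hT' => ?_
      have : mix (S.piecewise (fun i => decide (i ∈ T')) fun _ => false) = T'.piecewise b a := by
        funext i
        by_cases hi : i ∈ T'
        · simp [mix, Finset.piecewise, hi, Finset.mem_powerset.1 hT' hi]
        · simp [mix, Finset.piecewise, hi]
      simp only [this, decide_eq_true_eq]
    have h1 := P362.UB.deg_bound (fun u => decide (f (mix u) = γ)) (fun u => w (mix u))
      (fun u i => hw0 _ i) T c (fun u S => hTS _ S) hc (fun u i hu => ?_) S hm _ hcoef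
    · have h2 : Real.sqrt (m + 1) ≤ T / c := by
        rw [le_div_iff₀ hc]
        linarith only [h1]
      have h3 : (m : ℝ) + 1 ≤ (T / c) ^ 2 := by
        have := pow_le_pow_left₀ (Real.sqrt_nonneg _) h2 2
        rwa [Real.sq_sqrt (by positivity)] at this
      have h4 : m + 1 ≤ d := Nat.le_floor (by push_cast; exact h3)
      omega
    · have h5 : f (mix u) ≠ f (mix (Function.update u i (!u i))) := fun h5 => hu (by rw [h5])
      refine (h _ _ h5).trans ?_
      refine le_trans (Finset.sum_le_sum_of_subset_of_nonneg (t := {i}) ?_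
        fun _ _ _ => Real.sqrt_nonneg _) (by rw [Finset.sum_singleton])
      intro k hk
      rw [Finset.mem_singleton]
      by_contra hki
      exact (Finset.mem_filter.1 hk).2 (by simp [mix, Function.update_of_ne hki])
  have hbs : BsG f d := by
    intro a b m B hdis hsens
    have hB : ∀ j, c ^ 2 ≤ T * ∑ i ∈ B j, w a i := by
      intro j
      set y := (B j).piecewise b a with hy
      have h1 : c ≤ ∑ i ∈ B j, Real.sqrt (w a i) * Real.sqrt (w y i) := by
        refine (h a y (hsens j).symm).trans ?_
        refine le_trans (Finset.sum_le_sum_of_subset_of_nonneg (t := B j) ?_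
          fun _ _ _ => Real.sqrt_nonneg _)
          (Finset.sum_congr rfl fun i _ => Real.sqrt_mul (hw0 a i) _).le
        intro k hk
        by_contra hkB
        exact (Finset.mem_filter.1 hk).2 (by simp [hy, hkB])
      have h3 := Finset.sum_mul_sq_le_sq_mul_sq (B j) (fun i => Real.sqrt (w a i))
        fun i => Real.sqrt (w y i)
      rw [Finset.sum_congr rfl fun i _ => Real.sq_sqrt (hw0 a i),
        Finset.sum_congr rfl fun i _ => Real.sq_sqrt (hw0 y i)] at h3
      have h5 := pow_le_pow_left₀ hc.le h1 2
      have h6 : (∑ i ∈ B j, w a i) * ∑ i ∈ B j, w y i ≤ (∑ i ∈ B j, w a i) * T :=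
        mul_le_mul_of_nonneg_left (hTS _ _) (Finset.sum_nonneg fun i _ => hw0 a i)
      linarith only [h3, h5, h6]
    have h1 : (m : ℝ) * c ^ 2 ≤ T * ∑ j, ∑ i ∈ B j, w a i := by
      rw [Finset.mul_sum]
      have := Finset.sum_le_sum fun j (_ : j ∈ Finset.univ) => hB j
      simpa using this
    rw [← Finset.sum_biUnion fun i _ j _ hij => hdis hij] at h1
    have h3 := mul_le_mul_of_nonneg_left (hTS a (Finset.univ.biUnion B)) hT0
    apply Nat.le_floor
    rw [div_pow, le_div_iff₀ (by positivity)]
    linarith only [h1, h3]
  refine ⟨d * d, ?_, det_of_deg_bs a0 d d f hdeg hbs⟩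
  have h1 : (d : ℝ) ≤ (T / c) ^ 2 := Nat.floor_le (by positivity)
  calc ((d * d : ℕ) : ℝ) = (d : ℝ) * d := by push_cast; ring
    _ ≤ (T / c) ^ 2 * (T / c) ^ 2 := mul_le_mul h1 h1 (by positivity) (by positivity)
    _ = (T / c) ^ 4 := by ring

end Vale.Agent.N362
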