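import Vale.Agent.N362.Det

/-!
# P362: the hybrid argument over an alphabet, `D ≤ 256 Q ^ 4 / (2 t - 1) ^ 8`
-/

namespace Vale.Agent.N362

open Finset P362.UB

variable {n : ℕ} {G Γ W : Type} [Fintype W] [DecidableEq W]

omit [DecidableEq W] in
theorem block_mulVec (V : Fin n → G → Matrix W W ℂ) (x : Fin n → G) (u : Fin n × W → ℂ)
    (i : Fin n) (a : W) :
    (block V x).mulVec u (i, a) = (V i (x i)).mulVec (fun b => u (i, b)) a := by
  unfold Matrix.mulVec dotProduct block
  rw [Fintype.sum_prod_type, Finset.sum_eq_single i]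
  · simp
  · intro j _ hj
    simp [hj.symm]
  · intro h
    exact absurd (Finset.mem_univ _) h

/-- the norm of the component with query register `i` -/
noncomputable def pn (u : Fin n × W → ℂ) (i : Fin n) : ℝ := Real.sqrt (∑ w : W, ‖u (i, w)‖ ^ 2)

open Classical in
theorem ip_oracle {V : Fin n → G → Matrix W W ℂ} (hV : ∀ i g, V i g ∈ Matrix.unitaryGroup W ℂ)
    (x y : Fin n → G) (u v : Fin n × W → ℂ) :
    ‖ip ((block V x).mulVec u) ((block V y).mulVec v) - ip u v‖ ≤
      2 * ∑ i ∈ Finset.univ.filter (fun i => x i ≠ y i), pn u i * pn v i := by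
  have h1 : ip ((block V x).mulVec u) ((block V y).mulVec v) =
      ∑ i, ip ((V i (x i)).mulVec fun b => u (i, b)) ((V i (y i)).mulVec fun b => v (i, b)) := by
    unfold ip
    rw [Fintype.sum_prod_type]
    refine Finset.sum_congr rfl fun i _ => Finset.sum_congr rfl fun w _ => ?_
    rw [block_mulVec, block_mulVec]
  have h2 : ip u v = ∑ i, ip (fun b => u (i, b)) fun b => v (i, b) := by
    unfold ip
    rw [Fintype.sum_prod_type]
  have hre : ∀ i g (z : W → ℂ), ∑ w, ‖(V i g).mulVec z w‖ ^ 2 = ∑ w, ‖z w‖ ^ 2 := by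
    intro i g z
    have := ip_unitary ⟨V i g, hV i g⟩ z z
    rw [ip_self, ip_self] at this
    exact_mod_cast this
  rw [h1, h2, ← Finset.sum_sub_distrib]
  refine (norm_sum_le _ _).trans ?_
  rw [Finset.mul_sum, Finset.sum_filter]
  refine Finset.sum_le_sum fun i _ => ?_
  by_cases hi : x i = y i
  · rw [if_neg (not_not.mpr hi), hi]
    exact le_of_eq (norm_eq_zero.2 (sub_eq_zero.2 (ip_unitary ⟨V i (y i), hV i (y i)⟩ _ _)))
  · rw [if_pos hi]
    refine (norm_sub_le _ _).trans ?_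
    have h3 : ‖ip (fun b => u (i, b)) fun b => v (i, b)‖ ≤ pn u i * pn v i :=
      norm_ip_le Finset.univ (fun w => u (i, w)) (fun w => v (i, w))
    have h4 : ‖ip ((V i (x i)).mulVec fun b => u (i, b)) ((V i (y i)).mulVec fun b => v (i, b))‖ ≤
        pn u i * pn v i := by
      have := norm_ip_le Finset.univ ((V i (x i)).mulVec fun b => u (i, b))
        ((V i (y i)).mulVec fun b => v (i, b))
      rw [hre, hre] at this
      exact this
    linarith

variable {U : ℕ → Matrix (Fin n × W) (Fin n × W) ℂ} {V : ℕ → Fin n → G → Matrix W W ℂ}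
  (hU : ∀ t, U t ∈ Matrix.unitaryGroup (Fin n × W) ℂ)
  (hV : ∀ t i g, V t i g ∈ Matrix.unitaryGroup W ℂ) (w0 : Fin n × W)
include hU hV

open Classical in
theorem ip_state (x y : Fin n → G) : ∀ T : ℕ,
    ‖ip (state (fun t => block (V t) x) U w0 T) (state (fun t => block (V t) y) U w0 T) - 1‖ ≤
      2 * ∑ t ∈ Finset.range T, ∑ i ∈ Finset.univ.filter (fun i => x i ≠ y i),
        pn (state (fun t => block (V t) x) U w0 t) i * pn (state (fun t => block (V t) y) U w0 t) i := by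
  intro T
  induction T with
  | zero =>
    have : ip (state (fun t => block (V t) x) U w0 0) (state (fun t => block (V t) y) U w0 0) = 1 := by
      refine (ip_unitary ⟨U 0, hU 0⟩ _ _).trans ?_
      unfold ip
      rw [Finset.sum_eq_single w0]
      · simp
      · intro b _ hb
        simp [Pi.single_eq_of_ne hb]
      · intro h
        exact absurd (Finset.mem_univ _) h
    rw [this]
    simp
  | succ T ih =>
    rw [Finset.sum_range_succ, mul_add]
    have h1 : ip (state (fun t => block (V t) x) U w0 (T + 1)) (state (fun t => block (V t) y) U w0 (T + 1)) =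
        ip ((block (V T) x).mulVec (state (fun t => block (V t) x) U w0 T))
          ((block (V T) y).mulVec (state (fun t => block (V t) y) U w0 T)) :=
      ip_unitary ⟨U (T + 1), hU (T + 1)⟩ _ _
    have h2 := ip_oracle (hV T) x y (state (fun t => block (V t) x) U w0 T) (state (fun t => block (V t) y) U w0 T)
    rw [h1]
    refine le_trans (le_of_eq ?_) ((norm_add_le _ _).trans (add_le_add ih h2))
    congr 1
    ring

theorem state_norm (x : Fin n → G) (T : ℕ) : ∑ p, ‖state (fun t => block (V t) x) U w0 T p‖ ^ 2 = 1 := by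
  have h1 := ip_state hU hV w0 x x T
  simp only [ne_eq, not_true_eq_false, Finset.filter_false, Finset.sum_empty,
    Finset.sum_const_zero, mul_zero] at h1
  have h3 := sub_eq_zero.mp (norm_le_zero_iff.mp h1)
  rw [ip_self] at h3
  exact_mod_cast h3

omit hU hV in
theorem bc_le {p r δ : ℝ} (hp0 : 0 ≤ p) (hp1 : p ≤ 1) (hr0 : 0 ≤ r) (hr1 : r ≤ 1) (hδ : 0 ≤ δ)
    (h : δ ≤ p - r) :
    Real.sqrt p * Real.sqrt r + Real.sqrt (1 - p) * Real.sqrt (1 - r) ≤ 1 - δ ^ 2 / 2 := by
  have ha := Real.sq_sqrt hp0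
  have hb := Real.sq_sqrt hr0
  have hc := Real.sq_sqrt (sub_nonneg.2 hp1)
  have hd := Real.sq_sqrt (sub_nonneg.2 hr1)
  have ha0 := Real.sqrt_nonneg p
  have hb0 := Real.sqrt_nonneg r
  have hc0 := Real.sqrt_nonneg (1 - p)
  have hd0 := Real.sqrt_nonneg (1 - r)
  generalize Real.sqrt p = a at *
  generalize Real.sqrt r = b at *
  generalize Real.sqrt (1 - p) = c at *
  generalize Real.sqrt (1 - r) = d at *
  have e1 : (a * b + c * d) ^ 2 + (a * d - b * c) ^ 2 = 1 := by
    have : (a * b + c * d) ^ 2 + (a * d - b * c) ^ 2 = (a ^ 2 + c ^ 2) * (b ^ 2 + d ^ 2) := by ring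
    rw [this, ha, hb, hc, hd]
    ring
  have e2 : (a * d + b * c) ^ 2 ≤ 1 := by
    have : (a * d + b * c) ^ 2 + (a * b - c * d) ^ 2 = (a ^ 2 + c ^ 2) * (b ^ 2 + d ^ 2) := by ring
    rw [ha, hb, hc, hd] at this
    nlinarith [sq_nonneg (a * b - c * d)]
  have e3 : p - r = (a * d - b * c) * (a * d + b * c) := by
    have : (a * d - b * c) * (a * d + b * c) = a ^ 2 * d ^ 2 - b ^ 2 * c ^ 2 := by ring
    rw [this, ha, hb, hc, hd]
    ring
  have e4 : δ ^ 2 ≤ (a * d - b * c) ^ 2 := by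
    have h1 : δ ^ 2 ≤ (p - r) ^ 2 := pow_le_pow_left₀ hδ h 2
    rw [e3, mul_pow] at h1
    nlinarith [sq_nonneg (a * d - b * c)]
  have e5 : δ ≤ 1 := by linarith
  have e6 : 0 ≤ 1 - δ ^ 2 / 2 := by nlinarith
  refine le_of_sq_le_sq ?_ e6
  nlinarith [sq_nonneg (δ ^ 2)]

open Classical in
theorem final_ip (out : Fin n × W → Γ) (f : (Fin n → G) → Γ) (s : ℝ) (hs : 1 / 2 ≤ s) (T : ℕ)
    (h : ∀ x, s ≤ ∑ p, if out p = f x then ‖state (fun t => block (V t) x) U w0 T p‖ ^ 2 else 0)
    (x y : Fin n → G) (hxy : f x ≠ f y) :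
    ‖ip (state (fun t => block (V t) x) U w0 T) (state (fun t => block (V t) y) U w0 T)‖ ≤ 1 - (2 * s - 1) ^ 2 / 2 := by
  set u := state (fun t => block (V t) x) U w0 T with hu
  set v := state (fun t => block (V t) y) U w0 T with hv
  set S := Finset.univ.filter (fun p => out p = f x) with hS
  set S' := Finset.univ.filter (fun p => ¬ out p = f x) with hS'
  have nu : ∑ p ∈ S, ‖u p‖ ^ 2 + ∑ p ∈ S', ‖u p‖ ^ 2 = 1 := by
    rw [hS, hS', Finset.sum_filter_add_sum_filter_not]
    exact state_norm hU hV w0 x T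
  have nv : ∑ p ∈ S, ‖v p‖ ^ 2 + ∑ p ∈ S', ‖v p‖ ^ 2 = 1 := by
    rw [hS, hS', Finset.sum_filter_add_sum_filter_not]
    exact state_norm hU hV w0 y T
  have hx : s ≤ ∑ p ∈ S, ‖u p‖ ^ 2 := by
    rw [hS, Finset.sum_filter]
    exact h x
  have hy : s ≤ ∑ p ∈ S', ‖v p‖ ^ 2 := by
    refine (h y).trans ?_
    rw [hS', Finset.sum_filter]
    refine Finset.sum_le_sum fun p _ => ?_
    by_cases hp : out p = f y
    · rw [if_pos hp, if_pos (fun h' => hxy (h'.symm.trans hp))]
    · rw [if_neg hp]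
      split_ifs <;> positivity
  have p0 : ∀ (z : Fin n × W → ℂ) (S : Finset (Fin n × W)), 0 ≤ ∑ p ∈ S, ‖z p‖ ^ 2 :=
    fun z S => Finset.sum_nonneg fun _ _ => sq_nonneg _
  have h1 : ‖ip u v‖ ≤ Real.sqrt (∑ p ∈ S, ‖u p‖ ^ 2) * Real.sqrt (∑ p ∈ S, ‖v p‖ ^ 2) +
      Real.sqrt (∑ p ∈ S', ‖u p‖ ^ 2) * Real.sqrt (∑ p ∈ S', ‖v p‖ ^ 2) := by
    unfold ip
    rw [← Finset.sum_filter_add_sum_filter_not Finset.univ (fun p => out p = f x)]
    exact (norm_add_le _ _).trans (add_le_add (norm_ip_le _ _ _) (norm_ip_le _ _ _))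
  have h2 := bc_le (p0 u S) (by linarith [p0 u S']) (p0 v S) (by linarith [p0 v S'])
    (δ := 2 * s - 1) (by linarith) (by linarith)
  rw [show 1 - ∑ p ∈ S, ‖u p‖ ^ 2 = ∑ p ∈ S', ‖u p‖ ^ 2 by linarith,
    show 1 - ∑ p ∈ S, ‖v p‖ ^ 2 = ∑ p ∈ S', ‖v p‖ ^ 2 by linarith] at h2
  exact h1.trans h2

omit hU in
/-- a quantum algorithm with `T` queries gives a deterministic one with `O(T ^ 4)` queries -/
theorem det_of_solves [Nonempty G] {f : (Fin n → G) → Γ} {s : ℝ} (hs : 1 / 2 < s) {T : ℕ}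
    (h : Solves (fun x t => block (V t) x) s f T) :
    ∃ m : ℕ, (m : ℝ) ≤ 256 * (T : ℝ) ^ 4 / (2 * s - 1) ^ 8 ∧ DetComputes f m := by
  classical
  obtain ⟨U, w0, out, hU, h⟩ := h
  let w : (Fin n → G) → Fin n → ℝ := fun x i =>
    ∑ t ∈ Finset.range T, pn (state (fun t => block (V t) x) U w0 t) i ^ 2
  have hw0 : ∀ x i, 0 ≤ w x i := fun x i => Finset.sum_nonneg fun _ _ => sq_nonneg _
  have hδ : 0 < 2 * s - 1 := by linarith
  have key := det_of_weights (Classical.arbitrary _) f w hw0 T ((2 * s - 1) ^ 2 / 4)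
    (fun x => ?_) (by positivity) (fun x y hxy => ?_)
  · obtain ⟨m, hm, hD⟩ := key
    refine ⟨m, hm.trans (le_of_eq ?_), hD⟩
    field_simp
    ring
  · rw [Finset.sum_comm]
    have : ∀ t ∈ Finset.range T, ∑ i, pn (state (fun t => block (V t) x) U w0 t) i ^ 2 = 1 := by
      intro t _
      rw [← state_norm hU hV w0 x t, Fintype.sum_prod_type]
      refine Finset.sum_congr rfl fun i _ => ?_
      unfold pn
      rw [Real.sq_sqrt (Finset.sum_nonneg fun _ _ => sq_nonneg _)]
    rw [Finset.sum_congr rfl this]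
    simp
  · have h1 := ip_state hU hV w0 x y T
    rw [Finset.sum_comm] at h1
    have h2 := final_ip hU hV w0 out f s hs.le T h x y hxy
    have h3 : (1 : ℝ) ≤ ‖ip (state (fun t => block (V t) x) U w0 T) (state (fun t => block (V t) y) U w0 T)‖ +
        ‖ip (state (fun t => block (V t) x) U w0 T) (state (fun t => block (V t) y) U w0 T) - 1‖ := by
      refine le_trans (le_of_eq ?_) (norm_sub_le _ _)
      rw [sub_sub_cancel, norm_one]
    have h4 : ∑ i ∈ Finset.univ.filter (fun i => x i ≠ y i), ∑ t ∈ Finset.range T,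
        pn (state (fun t => block (V t) x) U w0 t) i * pn (state (fun t => block (V t) y) U w0 t) i ≤
        ∑ i ∈ Finset.univ.filter (fun i => x i ≠ y i), Real.sqrt (w x i * w y i) := by
      refine Finset.sum_le_sum fun i _ => ?_
      rw [Real.sqrt_mul (hw0 x i)]
      exact Real.sum_mul_le_sqrt_mul_sqrt _ _ _
    have h5 : (2 * s - 1) ^ 2 / 4 ≤
        ∑ i ∈ Finset.univ.filter (fun i => x i ≠ y i), Real.sqrt (w x i * w y i) := by
      linarith only [h1, h2, h3, h4]
    convert h5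

omit hU hV in
theorem det_of_quant [AddGroup G] [Fintype G] [DecidableEq G] {f : (Fin n → G) → Γ} {s : ℝ}
    (hs : 1 / 2 < s) {T : ℕ} (h : QuantComputes s f T) :
    ∃ m : ℕ, (m : ℝ) ≤ 256 * (T : ℝ) ^ 4 / (2 * s - 1) ^ 8 ∧ DetComputes f m := by
  obtain ⟨W, _, _, h⟩ := h
  refine det_of_solves (V := fun _ _ g => P362.embM fun q : G × W => (q.1 + g, q.2))
    (fun _ _ g => P362.embM_mem fun q q' hq => ?_) hs ?_
  · simpa [Prod.ext_iff] using hq
  · convert h using 3 with x t
    ext ⟨i, a⟩ ⟨j, b⟩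
    simp only [block, oracle, P362.embM_apply, Prod.mk.injEq]
    by_cases hij : i = j
    · subst hij
      simp
    · simp [hij]

end Vale.Agent.N362
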