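import Vale.Agent.N362.Amp

/-!
# P362: the exponent over every alphabet
-/

namespace Vale.Agent.N362

open P362

variable {n : ℕ} {G Γ : Type} [AddGroup G] [Fintype G] [DecidableEq G]

omit [Fintype G] [DecidableEq G] in
theorem D_spec (f : (Fin n → G) → Γ) : DetComputes f (D f) :=
  Nat.sInf_mem (s := {T | DetComputes f T}) ⟨n, det_n f⟩

omit [Fintype G] [DecidableEq G] in
theorem R_spec (f : (Fin n → G) → Γ) {s : ℝ} (hs : s ≤ 1) : RandComputes s f (R s f) :=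
  Nat.sInf_mem (s := {T | RandComputes s f T}) ⟨_, rand_of_det (D_spec f) hs⟩

omit [Fintype G] [DecidableEq G] in
theorem R0_spec (f : (Fin n → G) → Γ) : ZeroComputes f (R0 f) :=
  Nat.sInf_mem (s := {T | ZeroComputes f T}) ⟨_, zero_of_det (D_spec f)⟩

theorem Q_spec (hn : 1 ≤ n) (f : (Fin n → G) → Γ) {s : ℝ} (hs : s ≤ 1) :
    QuantComputes s f (Q s f) :=
  Nat.sInf_mem (s := {T | QuantComputes s f T}) ⟨_, quant_of_rand hn (R_spec f hs)⟩

theorem D_le_Q (hn : 1 ≤ n) (f : (Fin n → G) → Γ) {s : ℝ} (hs : s ≤ 1) (hs' : 1 / 2 < s) :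
    (D f : ℝ) ≤ 256 * (Q s f : ℝ) ^ 4 / (2 * s - 1) ^ 8 := by
  obtain ⟨m, hm, h⟩ := det_of_quant hs' (Q_spec hn f hs)
  have : D f ≤ m := Nat.sInf_le h
  exact le_trans (by exact_mod_cast this) hm

theorem basics (hn : 1 ≤ n) (f : (Fin n → G) → Γ) (s : ℝ) (hs : s ≤ 1) :
    (DetComputes f (D f) ∧ RandComputes s f (R s f) ∧ ZeroComputes f (R0 f) ∧
      QuantComputes s f (Q s f)) ∧
    (Q s f ≤ R s f ∧ R s f ≤ D f ∧ D f ≤ n ∧ R (2 / 3) f ≤ 3 * R0 f ∧ R0 f ≤ D f) ∧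
    (1 / 2 < s → (D f : ℝ) ≤ 256 * (Q s f : ℝ) ^ 4 / (2 * s - 1) ^ 8) :=
  ⟨⟨D_spec f, R_spec f hs, R0_spec f, Q_spec hn f hs⟩,
    ⟨Nat.sInf_le (quant_of_rand hn (R_spec f hs)), Nat.sInf_le (rand_of_det (D_spec f) hs),
      Nat.sInf_le (det_n f), Nat.sInf_le (rand_of_zero (R0_spec f)),
      Nat.sInf_le (zero_of_det (D_spec f))⟩, D_le_Q hn f hs⟩

theorem any_oracle {G W : Type} [Nonempty G] [Fintype W] [DecidableEq W]
    (V : ℕ → Fin n → G → Matrix W W ℂ) (hV : ∀ t i g, V t i g ∈ Matrix.unitaryGroup W ℂ)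
    (f : (Fin n → G) → Γ) (s : ℝ) (T : ℕ) (hs : 1 / 2 < s)
    (h : Solves (fun x t => block (V t) x) s f T) :
    DetComputes f (D f) ∧ (D f : ℝ) ≤ 256 * (T : ℝ) ^ 4 / (2 * s - 1) ^ 8 := by
  obtain ⟨m, hm, h⟩ := det_of_solves hV hs h
  have : D f ≤ m := Nat.sInf_le h
  exact ⟨Nat.sInf_mem (s := {T | DetComputes f T}) ⟨m, h⟩, le_trans (by exact_mod_cast this) hm⟩

theorem transferQ (hn : 1 ≤ n) (y0 y1 : Γ) (g : (Fin n → Bool) → Bool) {e s : ℝ} (he : 1 ≤ e)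
    (hs : s ≤ 1 - 2 ^ (-e)) : (Q s (lift (G := G) y0 y1 g) : ℝ) ≤ 288 * e ^ 2 * P362.Q g := by
  obtain ⟨k, hk, μ, hμ, h⟩ := QA.small he (H32.ach_of_quant (UB.quantComputes_Q n hn g))
  have h1 : Q s (lift (G := G) y0 y1 g) ≤ 2 * (k * P362.Q g) :=
    Nat.sInf_le ((quant_of_qdist hn y0 y1 hμ.toQDist h).mono hs)
  have h2 : (Q s (lift (G := G) y0 y1 g) : ℝ) ≤ 2 * (k * P362.Q g) := by exact_mod_cast h1
  have h3 : (0 : ℝ) ≤ P362.Q g := Nat.cast_nonneg _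
  nlinarith

theorem transferR [Nontrivial G] {y0 y1 : Γ} (hy : y0 ≠ y1) (g : (Fin n → Bool) → Bool) {γ : ℝ}
    (h0 : 0 < γ) (hγ : γ ≤ 1 / 2) :
    γ ^ 3 * P362.R g ≤ 3 * R (1 / 2 + γ) (lift (G := G) y0 y1 g) := by
  obtain ⟨g1, hg⟩ := exists_ne (0 : G)
  exact R_le_of_adv h0 (by linarith) (finRand_of_rand hg hy (R_spec _ (by linarith)))

theorem exponents_eq [Nontrivial G] [Nontrivial Γ] {t : ℝ} (ht : 1 / 2 < t) (ht' : t < 1)
    (M : (n : ℕ) → ((Fin n → G) → Γ) → ℕ) (hM : ∀ n f, M n f ≤ D f) {s : ℝ} (hs : 1 / 2 < s)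
    (hs' : s ≤ 1) (hM' : ∀ n f, R s f ≤ 3 * M n f) :
    exponents G Γ M (fun _ => Q t) = Set.Ici 4 := by
  ext α
  constructor
  · rintro ⟨hα, C, hC⟩
    by_contra h4
    refine P362.not_polyBound α (not_le.mp h4) ?_
    obtain ⟨y0, y1, hy⟩ := exists_pair_ne Γ
    set e : ℝ := max 1 (-Real.logb 2 (1 - t)) with he
    have he1 : 1 ≤ e := le_max_left _ _
    have het : t ≤ 1 - 2 ^ (-e) := by
      have h1 : (2 : ℝ) ^ (-e) ≤ 2 ^ Real.logb 2 (1 - t) :=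
        Real.rpow_le_rpow_of_exponent_le (by norm_num) (by linarith [le_max_right 1 (-Real.logb 2 (1 - t))])
      rw [Real.rpow_logb (by norm_num) (by norm_num) (by linarith)] at h1
      linarith
    have hγ : 0 < s - 1 / 2 := by linarith
    refine ⟨9 * (|C| * (288 * e ^ 2) ^ α) / (s - 1 / 2) ^ 3, fun n hn g => ?_⟩
    have h1 := transferR (G := G) hy g hγ (by linarith)
    rw [add_sub_cancel] at h1
    have h2 := transferQ (G := G) hn y0 y1 g he1 het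
    have h3 : (R s (lift (G := G) y0 y1 g) : ℝ) ≤ 3 * M n (lift y0 y1 g) := by
      exact_mod_cast hM' n _
    have h5 := hC n hn (lift y0 y1 g)
    have hK : (1 : ℝ) ≤ 288 * e ^ 2 := by nlinarith
    have h6 : (1 + (Q t (lift (G := G) y0 y1 g) : ℝ)) ^ α ≤
        (288 * e ^ 2) ^ α * (1 + (P362.Q g : ℝ)) ^ α := by
      rw [← Real.mul_rpow (by positivity) (by positivity)]
      exact Real.rpow_le_rpow (by positivity) (by linarith) hα
    have h7 : C * (1 + (Q t (lift (G := G) y0 y1 g) : ℝ)) ^ α ≤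
        |C| * ((288 * e ^ 2) ^ α * (1 + (P362.Q g : ℝ)) ^ α) :=
      mul_le_mul (le_abs_self C) h6 (by positivity) (abs_nonneg C)
    rw [div_mul_eq_mul_div, le_div_iff₀ (by positivity)]
    linarith
  · intro hα
    have hα' : (4 : ℝ) ≤ α := hα
    refine ⟨by linarith, 256 / (2 * t - 1) ^ 8, fun n hn f => ?_⟩
    have h1 : (M n f : ℝ) ≤ D f := by exact_mod_cast hM n f
    have h0 : (0 : ℝ) ≤ Q t f := Nat.cast_nonneg _
    have h2 : (Q t f : ℝ) ^ 4 ≤ (1 + (Q t f : ℝ)) ^ α := by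
      calc (Q t f : ℝ) ^ 4 ≤ (1 + (Q t f : ℝ)) ^ 4 := by gcongr; linarith
        _ = (1 + (Q t f : ℝ)) ^ (4 : ℝ) := by norm_cast
        _ ≤ _ := Real.rpow_le_rpow_of_exponent_le (by linarith) hα'
    refine h1.trans ((D_le_Q hn f ht'.le ht).trans ?_)
    rw [mul_div_right_comm]
    exact mul_le_mul_of_nonneg_left h2 (by positivity)

theorem all_exponents [Nontrivial G] [Nontrivial Γ] (s t : ℝ) (hs : 1 / 2 < s) (hs' : s ≤ 1)
    (ht : 1 / 2 < t) (ht' : t < 1) :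
    exponents G Γ (fun _ => R s) (fun _ => Q t) = Set.Ici 4 ∧
      exponents G Γ (fun _ => R0) (fun _ => Q t) = Set.Ici 4 ∧
      exponents G Γ (fun _ => D) (fun _ => Q t) = Set.Ici 4 :=
  ⟨exponents_eq ht ht' _ (fun _ f => Nat.sInf_le (rand_of_det (D_spec f) hs')) hs hs'
      fun _ _ => by omega,
    exponents_eq ht ht' _ (fun _ f => Nat.sInf_le (zero_of_det (D_spec f))) (s := 2 / 3)
      (by norm_num) (by norm_num) fun _ f => Nat.sInf_le (rand_of_zero (R0_spec f)),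
    exponents_eq ht ht' _ (fun _ _ => le_rfl) hs hs' fun _ f =>
      (Nat.sInf_le (rand_of_det (D_spec f) hs')).trans (by omega)⟩

theorem alphaTot_eq : alphaTot = 4 := by
  rw [alphaTot, (all_exponents (G := ZMod 2) (Γ := ZMod 2) (2 / 3) (2 / 3) (by norm_num)
    (by norm_num) (by norm_num) (by norm_num)).1, csInf_Ici]

theorem rate : ∃ A : ℝ, ∀ (G Γ : Type) [AddGroup G] [Fintype G] [DecidableEq G] [Nontrivial G]
    [Nontrivial Γ] (q : ℕ), 2 ≤ q → ∃ n : ℕ, 1 ≤ n ∧ ∃ f : (Fin n → G) → Γ,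
      Q (1 - 2 ^ (-slack q)) f ≤ q ∧ ∀ γ : ℝ, 0 < γ → γ ≤ 1 / 2 →
        γ ^ 3 * (q : ℝ) ^ 4 / slack q ^ A ≤ R (1 / 2 + γ) f := by
  obtain ⟨A, hA⟩ := H4.rate
  refine ⟨|A| + 47, fun G Γ _ _ _ _ _ q hq => ?_⟩
  obtain ⟨y0, y1, hy⟩ := exists_pair_ne Γ
  have hq' : (2 : ℝ) ≤ q := by exact_mod_cast hq
  have hL : 1 ≤ √(Real.logb 2 q) := by
    rw [Real.one_le_sqrt, Real.le_logb_iff_rpow_le (by norm_num) (by linarith), Real.rpow_one]
    exact hq'
  set e := slack q with he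
  have he2 : 2 ≤ e := by
    have := Real.rpow_le_rpow_of_exponent_le (by norm_num : (1 : ℝ) ≤ 2) hL
    rwa [Real.rpow_one] at this
  have hE : e ^ (|A| + 47) = e ^ |A| * (e ^ 39 * e ^ 8) := by
    rw [Real.rpow_add (by linarith), ← pow_add]
    norm_cast
  have h39 : (2 : ℝ) ^ 39 ≤ e ^ 39 := pow_le_pow_left₀ (by norm_num) he2 _
  have hA1 : 1 ≤ e ^ |A| := Real.one_le_rpow (by linarith) (abs_nonneg A)
  have hK : (0 : ℝ) < 288 * e ^ 2 := by positivity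
  have h8 : 0 < e ^ 8 := by positivity
  rcases Nat.eq_zero_or_pos ⌊(q : ℝ) / (288 * e ^ 2)⌋₊ with h0 | h0
  · refine ⟨1, le_rfl, lift y0 y1 H4.bit1, ?_, fun γ hγ hγ' => ?_⟩
    · have := (basics (G := G) le_rfl (lift y0 y1 H4.bit1) (1 - 2 ^ (-e))
        (by linarith [Real.rpow_pos_of_pos (by norm_num : (0 : ℝ) < 2) (-e)])).2.1
      omega
    · have h1 := transferR (G := G) hy H4.bit1 hγ hγ'
      have h2 : (1 : ℝ) ≤ P362.R H4.bit1 := by exact_mod_cast H4.R_bit1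
      have h3 : R (1 / 2 + γ) (lift (G := G) y0 y1 H4.bit1) ≠ 0 := by
        intro h3
        rw [h3] at h1
        have : 0 < γ ^ 3 * P362.R H4.bit1 := by positivity
        simp at h1
        linarith
      have h4 : (1 : ℝ) ≤ R (1 / 2 + γ) (lift (G := G) y0 y1 H4.bit1) := by
        exact_mod_cast Nat.one_le_iff_ne_zero.2 h3
      refine le_trans ?_ h4
      rw [Nat.floor_eq_zero, div_lt_one hK] at h0
      rw [div_le_one (by positivity), hE]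
      have h5 : (q : ℝ) ^ 4 ≤ (288 * e ^ 2) ^ 4 := by gcongr
      have h6 : γ ^ 3 ≤ 1 := pow_le_one₀ hγ.le (by linarith)
      calc γ ^ 3 * (q : ℝ) ^ 4 ≤ 1 * (288 * e ^ 2) ^ 4 := by gcongr
        _ = 1 * (288 ^ 4 * e ^ 8) := by ring
        _ ≤ _ := by gcongr; linarith
  · set k := ⌊(q : ℝ) / (288 * e ^ 2)⌋₊ with hk
    obtain ⟨n, hn, g, -, h1, h2⟩ := hA k h0
    have hk1 : (1 : ℝ) ≤ k := by exact_mod_cast h0
    have hkq : (k : ℝ) * (288 * e ^ 2) ≤ q := by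
      rw [← le_div_iff₀ hK]
      exact Nat.floor_le (by positivity)
    have hqk : (q : ℝ) ≤ 576 * e ^ 2 * k := by
      have := Nat.lt_floor_add_one ((q : ℝ) / (288 * e ^ 2))
      rw [div_lt_iff₀ hK, ← hk] at this
      nlinarith
    refine ⟨n, hn, lift y0 y1 g, ?_, fun γ hγ hγ' => ?_⟩
    · have := transferQ (G := G) hn y0 y1 g (e := e) (by linarith) le_rfl
      have h3 : (Q (1 - 2 ^ (-e)) (lift (G := G) y0 y1 g) : ℝ) ≤ q := by nlinarith
      exact_mod_cast h3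
    · have h3 := transferR (G := G) hy g hγ hγ'
      have h4 : (2 : ℝ) ^ (A * √(Real.logb 2 k)) ≤ e ^ |A| := by
        rw [he, slack, ← Real.rpow_mul (by norm_num)]
        refine Real.rpow_le_rpow_of_exponent_le (by norm_num) ?_
        have h5 : √(Real.logb 2 k) ≤ √(Real.logb 2 q) :=
          Real.sqrt_le_sqrt (Real.logb_le_logb_of_le (by norm_num) (by linarith)
            (le_trans (le_mul_of_one_le_right (by linarith) (by nlinarith)) hkq))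
        calc A * √(Real.logb 2 k) ≤ |A| * √(Real.logb 2 k) := by gcongr; exact le_abs_self A
          _ ≤ |A| * √(Real.logb 2 q) := by gcongr
          _ = _ := mul_comm _ _
      rw [div_le_iff₀ (by positivity)] at h2
      have h5 : (k : ℝ) ^ 4 ≤ P362.R g * e ^ |A| := h2.trans (by gcongr)
      rw [div_le_iff₀ (by positivity), hE]
      calc γ ^ 3 * (q : ℝ) ^ 4 ≤ γ ^ 3 * (576 * e ^ 2 * k) ^ 4 := by gcongr
        _ = γ ^ 3 * k ^ 4 * (576 ^ 4 * e ^ 8) := by ring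
        _ ≤ γ ^ 3 * (P362.R g * e ^ |A|) * (576 ^ 4 * e ^ 8) := by gcongr
        _ = γ ^ 3 * P362.R g * (e ^ |A| * (576 ^ 4 * e ^ 8)) := by ring
        _ ≤ 3 * R (1 / 2 + γ) (lift (G := G) y0 y1 g) * (e ^ |A| * (576 ^ 4 * e ^ 8)) := by gcongr
        _ = R (1 / 2 + γ) (lift (G := G) y0 y1 g) * (e ^ |A| * (3 * 576 ^ 4 * e ^ 8)) := by ring
        _ ≤ _ := by gcongr; linarith

end Vale.Agent.N362
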