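import Vale.Agent.N362.Sim

/-!
# P362: randomized algorithms over an alphabet
-/

namespace Vale.Agent.N362

open Finset MeasureTheory P362

variable {n : ℕ} {G Γ : Type}

theorem rand_of_det {f : (Fin n → G) → Γ} {T : ℕ} (h : DetComputes f T) {s : ℝ} (hs : s ≤ 1) :
    RandComputes s f T := by
  obtain ⟨A, hA⟩ := h
  refine ⟨Unit, ⊤, Measure.dirac (), fun _ => A, inferInstance,
    fun x => ⟨fun _ => ⟨_, hA x⟩, trivial, ?_⟩⟩
  rw [Set.eq_univ_of_forall (s := {_ω : Unit | Outputs A x T (f x)}) fun _ => hA x]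
  simpa using hs

theorem zero_of_det {f : (Fin n → G) → Γ} {T : ℕ} (h : DetComputes f T) : ZeroComputes f T := by
  obtain ⟨A, hA⟩ := h
  refine ⟨Unit, ⊤, Measure.dirac (), fun _ => A, inferInstance,
    fun x => ⟨fun _ => ⟨_, hA x⟩, measurable_const, ?_⟩⟩
  rw [lintegral_const, measure_univ, mul_one]
  exact_mod_cast Nat.sInf_le (s := {T | ∃ y, Outputs A x T y}) ⟨_, hA x⟩

theorem RandComputes.mono {s s' : ℝ} {f : (Fin n → G) → Γ} {T : ℕ} (h : RandComputes s f T)
    (hs : s' ≤ s) : RandComputes s' f T := by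
  obtain ⟨Ω, m, P, A, hP, h⟩ := h
  exact ⟨Ω, m, P, A, hP, fun x => ⟨(h x).1, (h x).2.1, hs.trans (h x).2.2⟩⟩

theorem stop_or_length (A : Strategy n G Γ) (x : Fin n → G) (t : ℕ) :
    (answers A x t).length ≤ t ∧ ((∃ y, Outputs A x t y) ∨ (answers A x t).length = t) := by
  induction t with
  | zero => exact ⟨le_rfl, Or.inr rfl⟩
  | succ t ih =>
    cases h : A (answers A x t) with
    | inl i =>
      have h1 : (answers A x t).length = t := ih.2.resolve_left fun ⟨y, hy⟩ => by
        unfold Outputs at hy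
        rw [h] at hy
        cases hy
      have h2 : (answers A x (t + 1)).length = t + 1 := by
        rw [answers_succ, h]
        simp [h1]
      exact ⟨h2.le, Or.inr h2⟩
    | inr y =>
      refine ⟨?_, Or.inl ⟨y, Outputs.succ h⟩⟩
      rw [answers_succ, h]
      exact ih.1.trans (Nat.le_succ t)

/-- stop after `T` queries -/
def cutS (A : Strategy n G Γ) (T : ℕ) (y0 : Γ) : Strategy n G Γ := fun l =>
  if l.length < T then A l else Sum.inr ((A l).elim (fun _ => y0) id)

theorem answers_cutS (A : Strategy n G Γ) (T : ℕ) (y0 : Γ) (x : Fin n → G) (t : ℕ) (ht : t ≤ T) :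
    answers (cutS A T y0) x t = answers A x t := by
  induction t with
  | zero => rfl
  | succ t ih =>
    rw [answers_succ, ih (by omega), answers_succ, cutS,
      if_pos (lt_of_le_of_lt (stop_or_length A x t).1 (by omega))]

theorem outputs_cutS (A : Strategy n G Γ) (T : ℕ) (y0 : Γ) (x : Fin n → G) (y : Γ) :
    Outputs (cutS A T y0) x T y ↔
      Outputs A x T y ∨ ((¬ ∃ y', Outputs A x T y') ∧ y0 = y) := by
  unfold Outputs
  rw [answers_cutS A T y0 x T le_rfl, cutS]
  rcases h : A (answers A x T) with i | y'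
  · have h1 : (answers A x T).length = T := (stop_or_length A x T).2.resolve_left fun ⟨y, hy⟩ => by
      unfold Outputs at hy
      rw [h] at hy
      cases hy
    rw [if_neg (by omega)]
    simp
  · split_ifs <;> simp

theorem rand_of_zero [Nonempty G] {f : (Fin n → G) → Γ} {T : ℕ} (h : ZeroComputes f T) :
    RandComputes (2 / 3) f (3 * T) := by
  obtain ⟨Ω, _, P, A, hP, h⟩ := h
  let y0 : Γ := f (Classical.arbitrary _)
  refine ⟨Ω, inferInstance, P, fun ω => cutS (A ω) (3 * T) y0, hP, fun x => ?_⟩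
  obtain ⟨h1, h2, h3⟩ := h x
  have hc : ∀ ω, Outputs (A ω) x (cost (A ω) x) (f x) := by
    intro ω
    obtain ⟨t, ht⟩ := h1 ω
    obtain ⟨y, hy⟩ : ∃ y, Outputs (A ω) x (cost (A ω) x) y :=
      Nat.sInf_mem (s := {T | ∃ y, Outputs (A ω) x T y}) ⟨t, _, ht⟩
    rwa [hy.unique ht] at hy
  have hiff : ∀ ω, (∃ y, Outputs (A ω) x (3 * T) y) ↔ cost (A ω) x ≤ 3 * T := fun ω =>
    ⟨fun hy => Nat.sInf_le hy, fun hω => ⟨_, (hc ω).mono hω⟩⟩
  have hiff' : ∀ ω, Outputs (A ω) x (3 * T) (f x) ↔ cost (A ω) x ≤ 3 * T := fun ω =>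
    ⟨fun hy => Nat.sInf_le ⟨_, hy⟩, fun hω => (hc ω).mono hω⟩
  have hm : MeasurableSet {ω | cost (A ω) x ≤ 3 * T} := h2 (t := {k | k ≤ 3 * T}) trivial
  refine ⟨fun ω => ?_, ?_, ?_⟩
  · by_cases hω : ∃ y, Outputs (A ω) x (3 * T) y
    · obtain ⟨y, hy⟩ := hω
      exact ⟨y, (outputs_cutS _ _ _ _ _).2 (Or.inl hy)⟩
    · exact ⟨y0, (outputs_cutS _ _ _ _ _).2 (Or.inr ⟨hω, rfl⟩)⟩
  · simp only [outputs_cutS, hiff, hiff']
    exact hm.union (hm.compl.inter (MeasurableSet.const _))
  · have h4 : P.real {ω | cost (A ω) x ≤ 3 * T}ᶜ ≤ 1 / 3 := by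
      have h5 := mul_meas_ge_le_lintegral₀ (μ := P) (f := fun ω => (cost (A ω) x : ENNReal))
        (measurable_from_top.comp h2).aemeasurable ((3 * T + 1 : ℕ) : ENNReal)
      have h6 : {ω | cost (A ω) x ≤ 3 * T}ᶜ =
          {ω | ((3 * T + 1 : ℕ) : ENNReal) ≤ (cost (A ω) x : ENNReal)} := by
        ext ω
        simp only [Set.mem_compl_iff, Set.mem_ofPred_eq, Nat.cast_le]
        omega
      rw [← h6] at h5
      have h7 := ENNReal.toReal_mono (ENNReal.natCast_ne_top T) (h5.trans h3)
      rw [ENNReal.toReal_mul, ENNReal.toReal_natCast, ENNReal.toReal_natCast] at h7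
      change ((3 * T + 1 : ℕ) : ℝ) * P.real _ ≤ T at h7
      have h8 : 0 ≤ P.real {ω | cost (A ω) x ≤ 3 * T}ᶜ := measureReal_nonneg
      have h9 : (0 : ℝ) ≤ T := Nat.cast_nonneg T
      push_cast at h7
      nlinarith
    rw [probReal_compl_eq_one_sub hm] at h4
    refine le_trans (by linarith) (measureReal_mono (s₁ := {ω | cost (A ω) x ≤ 3 * T})
      fun ω hω => (outputs_cutS _ _ _ _ _).2 (Or.inl ((hiff' ω).2 hω)))

open Classical in
/-- on finitely many inputs a randomized algorithm is a finite mixture -/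
theorem exists_mix {X : Type} [Fintype X] (enc : X → Fin n → G) {f : (Fin n → G) → Γ} {s : ℝ}
    {T : ℕ} (h : RandComputes s f T) :
    ∃ (K : Type) (_ : Fintype K) (μ : K → ℝ) (A : K → Strategy n G Γ), (∀ k, 0 ≤ μ k) ∧ ∑ k, μ k = 1 ∧
        ∀ u, s ≤ ∑ k, if Outputs (A k) (enc u) T (f (enc u)) then μ k else 0 := by
  obtain ⟨Ω, _, P, A, hP, h⟩ := h
  let ev : Ω → X → Bool := fun ω u => decide (Outputs (A ω) (enc u) T (f (enc u)))
  have hev : Measurable ev := measurable_pi_lambda _ fun u => by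
    refine measurable_to_bool ?_
    convert (h (enc u)).2.1 using 1
    ext ω
    simp [ev]
  have := Measure.isProbabilityMeasure_map (μ := P) hev.aemeasurable
  obtain ⟨ω0⟩ := nonempty_of_isProbabilityMeasure P
  refine ⟨X → Bool, inferInstance, fun k => (P.map ev).real {k}, fun k => if hk : ∃ ω, ev ω = k then A hk.choose else A ω0,
    fun k => measureReal_nonneg, by simp, fun u => ?_⟩
  have h1 : P.real {ω | Outputs (A ω) (enc u) T (f (enc u))} =
      ∑ k ∈ Finset.univ.filter (fun k : X → Bool => k u = true), (P.map ev).real {k} := by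
    rw [sum_measureReal_singleton, map_measureReal_apply hev (Set.toFinite _).measurableSet]
    congr 1
    ext ω
    simp [ev]
  refine (h (enc u)).2.2.trans ?_
  rw [h1, Finset.sum_filter]
  refine Finset.sum_le_sum fun k _ => ?_
  by_cases hk : ∃ ω, ev ω = k
  · by_cases hu : k u = true
    · rw [if_pos hu, if_pos]
      dsimp only
      rw [dif_pos hk]
      have := congrFun hk.choose_spec u
      rw [hu] at this
      simpa [ev] using this
    · rw [if_neg hu]
      split_ifs
      exacts [measureReal_nonneg, le_rfl]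
  · have h0 : (P.map ev).real {k} = 0 := by
      rw [map_measureReal_apply hev (Set.toFinite _).measurableSet]
      have : ev ⁻¹' {k} = ∅ := Set.eq_empty_of_forall_notMem fun ω hω => hk ⟨ω, hω⟩
      rw [this, measureReal_empty]
    simp [h0]

theorem quant_of_rand [AddGroup G] [Fintype G] [DecidableEq G] (hn : 1 ≤ n)
    {f : (Fin n → G) → Γ} {s : ℝ} {T : ℕ} (h : RandComputes s f T) : QuantComputes s f T := by
  classical
  obtain ⟨K, _, μ, A, h0, h1, h⟩ := exists_mix id h
  exact quant_of_mix hn μ h0 h1 A h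

/-! ### finite distributions on Boolean decision trees -/

def FinRand (s : ℝ) (g : (Fin n → Bool) → Bool) (T : ℕ) : Prop :=
  ∃ (K : Type) (_ : Fintype K) (μ : K → ℝ) (t : K → DT (Fin n)), (∀ k, 0 ≤ μ k) ∧ ∑ k, μ k = 1 ∧
    (∀ k, (t k).depth ≤ T) ∧ ∀ u, s ≤ ∑ k, μ k * if (t k).eval u = g u then 1 else 0

open Classical in
/-- the Boolean decision tree of an algorithm run on the letters `0`, `g1` -/
noncomputable def toDT [Zero G] (g1 : G) (y1 : Γ) (A : Strategy n G Γ) : ℕ → List G → DT (Fin n)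
  | 0, l => .leaf (decide (A l = Sum.inr y1))
  | T + 1, l => (A l).elim
      (fun i => .node i (toDT g1 y1 A T (l ++ [0])) (toDT g1 y1 A T (l ++ [g1])))
      fun _ => toDT g1 y1 A T l

theorem toDT_depth [Zero G] (g1 : G) (y1 : Γ) (A : Strategy n G Γ) (T : ℕ) :
    ∀ l, (toDT g1 y1 A T l).depth ≤ T := by
  induction T with
  | zero => exact fun l => le_rfl
  | succ T ih =>
    intro l
    simp only [toDT]
    cases A l with
    | inl i => exact Nat.succ_le_succ (max_le (ih _) (ih _))
    | inr y => exact (ih l).trans (Nat.le_succ T)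

open Classical in
theorem toDT_eval [Zero G] (g1 : G) (y1 : Γ) (A : Strategy n G Γ) (u : Fin n → Bool) (T : ℕ) :
    ∀ t, (toDT g1 y1 A T (answers A (fun i => if u i then g1 else 0) t)).eval u =
      decide (Outputs A (fun i => if u i then g1 else 0) (t + T) y1) := by
  induction T with
  | zero => exact fun t => decide_eq_decide.2 Iff.rfl
  | succ T ih =>
    intro t
    rw [show t + (T + 1) = t + 1 + T by ring, ← ih (t + 1), answers_succ]
    simp only [toDT]
    cases A (answers A (fun i => if u i then g1 else 0) t) with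
    | inl i =>
      simp only [Sum.elim_inl, DT.eval_node]
      split_ifs <;> rfl
    | inr y => rfl

theorem finRand_of_rand [AddGroup G] [Fintype G] [DecidableEq G] {g1 : G} (hg : g1 ≠ 0)
    {y0 y1 : Γ} (hy : y0 ≠ y1) {g : (Fin n → Bool) → Bool} {s : ℝ} {T : ℕ}
    (h : RandComputes s (lift (G := G) y0 y1 g) T) : FinRand s g T := by
  classical
  let enc : (Fin n → Bool) → Fin n → G := fun u i => if u i then g1 else 0
  have hb : ∀ u, bits (enc u) = u := fun u => funext fun i => by
    by_cases hu : u i = true <;> simp [bits, enc, hu, hg]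
  obtain ⟨K, _, μ, A, h0, h1, h⟩ := exists_mix enc h
  refine ⟨K, inferInstance, μ, fun k => toDT g1 y1 (A k) T [], h0, h1,
    fun k => toDT_depth _ _ _ _ _, fun u => (h u).trans (Finset.sum_le_sum fun k _ => ?_)⟩
  by_cases h3 : Outputs (A k) (enc u) T (lift y0 y1 g (enc u))
  · rw [if_pos h3, if_pos, mul_one]
    have h2 := toDT_eval g1 y1 (A k) u T 0
    rw [Nat.zero_add] at h2
    refine h2.trans ?_
    rw [lift, hb] at h3
    cases hgu : g u
    · rw [hgu] at h3
      exact decide_eq_false fun h4 => hy (h3.unique h4)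
    · rw [hgu] at h3
      exact decide_eq_true h3
  · rw [if_neg h3]
    exact mul_nonneg (h0 k) (by split_ifs <;> norm_num)

theorem R_le_of_finRand {g : (Fin n → Bool) → Bool} {T : ℕ} (h : FinRand (2 / 3) g T) :
    P362.R g ≤ T := by
  classical
  obtain ⟨K, _, μ, t, h0, h1, ht, h⟩ := h
  let p : PMF K := PMF.ofFintype (fun k => ENNReal.ofReal (μ k)) (by
    rw [← ENNReal.ofReal_sum_of_nonneg fun k _ => h0 k, h1, ENNReal.ofReal_one])
  refine Nat.sInf_le ⟨p.map t, fun t' ht' => ?_, fun u => ?_⟩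
  · rw [PMF.support_map] at ht'
    obtain ⟨k, -, rfl⟩ := ht'
    exact ht k
  · rw [PMF.toOuterMeasure_map_apply, PMF.toOuterMeasure_apply, tsum_fintype]
    have h2 : (2 / 3 : ENNReal) = ENNReal.ofReal (2 / 3) := by
      rw [ENNReal.ofReal_div_of_pos (by norm_num)]
      norm_num
    rw [h2]
    refine (ENNReal.ofReal_le_ofReal (h u)).trans (le_of_eq ?_)
    rw [ENNReal.ofReal_sum_of_nonneg fun k _ => mul_nonneg (h0 k) (by split_ifs <;> norm_num)]
    refine Finset.sum_congr rfl fun k _ => ?_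
    rw [Set.indicator_apply]
    simp only [Set.mem_preimage, Set.mem_ofPred_eq]
    split_ifs <;> simp [p]

end Vale.Agent.N362
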