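import Vale.Agent.N362.Hyb

/-!
# P362: simulations in the quantum model over an alphabet
-/

namespace Vale.Agent.N362

open Finset Matrix P362

variable {n : ℕ} {G Γ : Type} [AddGroup G] [Fintype G] [DecidableEq G]

theorem embM_mul {α β γ : Type} [Fintype β] [DecidableEq β] [DecidableEq γ] (e : β → γ)
    (e' : α → β) : embM e * embM e' = embM (e ∘ e') := by
  ext a b
  rw [mul_embM_apply]
  rfl

theorem embM_single {β γ : Type} [Fintype β] [DecidableEq β] [DecidableEq γ] (e : β → γ) (b : β) :
    (embM e).mulVec (Pi.single b 1) = Pi.single (e b) (1 : ℂ) := by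
  funext a
  rw [mulVec_single_apply', embM_apply, Pi.single_apply]

theorem diagonal_embM {β γ : Type} [Fintype β] [DecidableEq β] [Fintype γ] [DecidableEq γ]
    (d : γ → ℂ) (e : β → γ) : diagonal d * embM e = embM e * diagonal (d ∘ e) := by
  ext a b
  rw [diagonal_mul, mul_diagonal, embM_apply]
  split_ifs with h
  · simp [h]
  · simp

omit [Fintype G] in
theorem oracle_eq_embM (W : Type) [DecidableEq W] (x : Fin n → G) :
    oracle W x = embM fun q : Fin n × G × W => (q.1, q.2.1 + x q.1, q.2.2) := rfl

theorem QuantComputes.mono {s s' : ℝ} {f : (Fin n → G) → Γ} {T : ℕ} (h : QuantComputes s f T)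
    (hs : s' ≤ s) : QuantComputes s' f T := by
  obtain ⟨W, i1, i2, U, w, out, hU, h⟩ := h
  exact ⟨W, i1, i2, U, w, out, hU, fun x => hs.trans (h x)⟩

/-! ### deterministic algorithms -/

section det

variable (A : Strategy n G Γ) (i0 : Fin n) {T : ℕ}

/-- the history read off a record of answers -/
def hist (w : ℕ → G) : ℕ → List G
  | 0 => []
  | t + 1 => (A (hist w t)).elim (fun _ => hist w t ++ [w t]) fun _ => hist w t

/-- the next position -/
def nxt (w : ℕ → G) (t : ℕ) : Fin n := (A (hist A w t)).elim id fun _ => i0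

/-- a record of length `T` -/
def ext0 (w : Fin T → G) (k : ℕ) : G := if h : k < T then w ⟨k, h⟩ else 0

omit [AddGroup G] [Fintype G] [DecidableEq G] in
theorem hist_congr {w w' : ℕ → G} (t : ℕ) (h : ∀ k < t, w k = w' k) :
    hist A w t = hist A w' t := by
  induction t with
  | zero => rfl
  | succ t ih =>
    have := ih fun k hk => h k (by omega)
    simp only [hist]
    rw [this, h t (by omega)]

omit [AddGroup G] [Fintype G] [DecidableEq G] in
theorem hist_eq (x : Fin n → G) (w : ℕ → G) (t : ℕ) (h : ∀ k < t, w k = x (nxt A i0 w k)) :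
    hist A w t = answers A x t := by
  induction t with
  | zero => rfl
  | succ t ih =>
    have h1 := ih fun k hk => h k (by omega)
    have h2 := h t (by omega)
    rw [answers_succ, ← h1]
    simp only [hist]
    rw [h2, nxt]
    cases A (hist A w t) <;> rfl

/-- store the answer, move to the next position -/
def stepD (t : Fin T) (p : Fin n × G × (Fin T → G)) : Fin n × G × (Fin T → G) :=
  (Equiv.swap (nxt A i0 (ext0 p.2.2) t) (nxt A i0 (ext0 (Function.update p.2.2 t p.2.1)) (t + 1))
    p.1, p.2.2 t, Function.update p.2.2 t p.2.1)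

omit [Fintype G] [DecidableEq G] in
theorem stepD_injective (t : Fin T) : Function.Injective (stepD A i0 t) := by
  rintro ⟨i, b, w⟩ ⟨i', b', w'⟩ h
  simp only [stepD, Prod.mk.injEq] at h
  obtain ⟨h1, h2, h3⟩ := h
  have hb : b = b' := by simpa using congrFun h3 t
  have hw : w = w' := by
    funext k
    by_cases hk : k = t
    · rw [hk, h2]
    · simpa [Function.update_of_ne hk] using congrFun h3 k
  subst hb hw
  rw [(Equiv.swap _ _).injective h1]

/-- the true record after `t` queries -/
def recd (x : Fin n → G) : ℕ → Fin T → G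
  | 0 => fun _ => 0
  | t + 1 => if h : t < T then
      Function.update (recd x t) ⟨t, h⟩ (x (nxt A i0 (ext0 (recd x t)) t)) else recd x t

omit [Fintype G] [DecidableEq G] in
theorem recd_spec (x : Fin n → G) (t : ℕ) (ht : t ≤ T) :
    (∀ k : Fin T, t ≤ k → recd A i0 x t k = 0) ∧
      ∀ k < t, ext0 (recd (T := T) A i0 x t) k = x (nxt A i0 (ext0 (recd (T := T) A i0 x t)) k) := by
  induction t with
  | zero => exact ⟨fun _ _ => rfl, fun k hk => absurd hk (by omega)⟩
  | succ t ih =>
    obtain ⟨h1, h2⟩ := ih (by omega)
    have hlt : t < T := by omega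
    have e : recd (T := T) A i0 x (t + 1) = Function.update (recd A i0 x t) ⟨t, hlt⟩
        (x (nxt A i0 (ext0 (recd (T := T) A i0 x t)) t)) := by
      simp only [recd]
      rw [dif_pos hlt]
    have hlow : ∀ k < t, ext0 (recd (T := T) A i0 x (t + 1)) k =
        ext0 (recd (T := T) A i0 x t) k := by
      intro k hk
      simp only [ext0]
      rw [dif_pos (by omega : k < T), dif_pos (by omega : k < T), e, Function.update_of_ne]
      intro h
      simp only [Fin.mk.injEq] at h
      omega
    have hn : ∀ k ≤ t, nxt A i0 (ext0 (recd (T := T) A i0 x (t + 1))) k =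
        nxt A i0 (ext0 (recd (T := T) A i0 x t)) k := by
      intro k hk
      simp only [nxt]
      rw [hist_congr A k fun j hj => hlow j (by omega)]
    refine ⟨fun k hk => ?_, fun k hk => ?_⟩
    · rw [e, Function.update_of_ne, h1 k (by omega)]
      intro h
      rw [h] at hk
      simp at hk
    · rw [hn k (by omega)]
      rcases Nat.lt_succ_iff_lt_or_eq.1 hk with hk | rfl
      · rw [hlow k hk, h2 k hk]
      · simp only [ext0]
        rw [dif_pos hlt, e, Function.update_self]

end det

open Classical in
/-- a finite mixture of deterministic algorithms is simulated in superposition -/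
theorem quant_of_mix (hn : 1 ≤ n) {K : Type} [Fintype K] (μ : K → ℝ) (h0 : ∀ k, 0 ≤ μ k)
    (h1 : ∑ k, μ k = 1) (A : K → Strategy n G Γ) {f : (Fin n → G) → Γ} {T : ℕ} {s : ℝ}
    (h : ∀ x, s ≤ ∑ k, if Outputs (A k) x T (f x) then μ k else 0) : QuantComputes s f T := by
  let i0 : Fin n := ⟨0, hn⟩
  let β := Fin n × G × K × (Fin T → G)
  let up : K → Fin n × G × (Fin T → G) → β := fun k p => (p.1, p.2.1, k, p.2.2)
  let st : Fin T → β → β := fun t p => up p.2.2.1 (stepD (A p.2.2.1) i0 t (p.1, p.2.1, p.2.2.2))
  have hst : ∀ t, Function.Injective (st t) := by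
    rintro t ⟨i, b, k, w⟩ ⟨i', b', k', w'⟩ h
    simp only [st, up, β, Prod.mk.injEq] at h
    obtain ⟨e1, e2, rfl, e3⟩ := h
    have := stepD_injective (A k) i0 t (Prod.ext e1 (Prod.ext e2 e3))
    simp only [Prod.mk.injEq] at this
    rw [this.1, this.2.1, this.2.2]
  let pt : (Fin n → G) → ℕ → K → β := fun x t k =>
    (nxt (A k) i0 (ext0 (recd (T := T) (A k) i0 x t)) t, 0, k, recd (A k) i0 x t)
  have hpt : ∀ x t, Function.Injective (pt x t) := fun x t k k' h => congrArg (·.2.2.1) h
  let c : K → ℂ := fun k => (Real.sqrt (μ k) : ℝ)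
  have hc : ∀ k, ‖c k‖ ^ 2 = μ k := fun k => by
    simp only [c]
    rw [Complex.norm_real, Real.norm_eq_abs, sq_abs, Real.sq_sqrt (h0 k)]
  have hsum : ∀ (e : K → β) (_ : Function.Injective e) (F : β → Prop),
      ∑ p, (if F p then ‖(embM e).mulVec c p‖ ^ 2 else 0) = ∑ k, if F (e k) then μ k else 0 := by
    intro e he F
    rw [← Finset.sum_subset (Finset.subset_univ (Finset.univ.image e)),
      Finset.sum_image fun a _ b _ hab => he hab]
    · refine Finset.sum_congr rfl fun k _ => ?_
      have : (embM e).mulVec c (e k) = c k := by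
        rw [Matrix.mulVec, dotProduct, Finset.sum_eq_single k]
        · simp [embM_apply]
        · intro j _ hj
          rw [embM_apply, if_neg (fun h => hj (he h).symm), zero_mul]
        · intro h
          exact absurd (Finset.mem_univ _) h
      rw [this, hc]
    · intro p _ hp
      have : (embM e).mulVec c p = 0 := by
        refine Finset.sum_eq_zero fun k _ => ?_
        change embM e p k * c k = 0
        rw [embM_apply, if_neg (fun h => hp (by simp [h])), zero_mul]
      simp [this]
  obtain ⟨k0⟩ : Nonempty K := by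
    by_contra hK
    rw [not_nonempty_iff] at hK
    simp at h1
  obtain ⟨U0, hU0, hcol⟩ := exists_unitary_col (pt 0 0 k0) ((embM (pt 0 0)).mulVec c) (by
    simpa [h1] using hsum (pt 0 0) (hpt 0 0) fun _ => True)
  let U : ℕ → Matrix β β ℂ := fun t =>
    match t with
    | 0 => U0
    | t + 1 => if h : t < T then embM (st ⟨t, h⟩) else 1
  refine ⟨K × (Fin T → G), inferInstance, inferInstance, U, pt 0 0 k0,
    fun p => (A p.2.2.1 (hist (A p.2.2.1) (ext0 p.2.2.2) T)).elim (fun _ => f 0) id,
    fun t => ?_, fun x => ?_⟩
  · cases t with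
    | zero => exact hU0
    | succ t =>
      simp only [U]
      split_ifs
      exacts [embM_mem (hst _), one_mem _]
  · have key : ∀ t ≤ T, state (fun _ => oracle (K × (Fin T → G)) x) U (pt 0 0 k0) t =
        (embM (pt x t)).mulVec c := by
      intro t ht
      induction t with
      | zero =>
        funext p
        exact (mulVec_single_apply' _ _ _).trans (hcol p)
      | succ t ih =>
        have hlt : t < T := by omega
        simp only [state_succ]
        rw [ih (by omega), oracle_eq_embM, mulVec_mulVec, mulVec_mulVec]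
        simp only [U]
        rw [dif_pos hlt, embM_mul, embM_mul]
        congr 2
        funext k
        have e : recd (T := T) (A k) i0 x (t + 1) = Function.update (recd (A k) i0 x t) ⟨t, hlt⟩
            (x (nxt (A k) i0 (ext0 (recd (T := T) (A k) i0 x t)) t)) := by
          simp only [recd]
          rw [dif_pos hlt]
        simp only [st, up, pt, Function.comp, stepD, zero_add, Equiv.swap_apply_left]
        rw [e, (recd_spec (A k) i0 x t hlt.le).1 _ le_rfl]
    rw [key T le_rfl]
    refine (h x).trans (le_trans ?_ (hsum (pt x T) (hpt x T) _).ge)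
    refine Finset.sum_le_sum fun k _ => ?_
    by_cases hk : Outputs (A k) x T (f x)
    · rw [if_pos hk, if_pos]
      dsimp only [pt]
      rw [hist_eq (A k) i0 x _ T (recd_spec (A k) i0 x T le_rfl).2, hk]
      rfl
    · rw [if_neg hk]
      split_ifs
      exacts [h0 k, le_rfl]

/-! ### Boolean algorithms: two queries for each phase query -/

/-- the bits of a word -/
def bits (x : Fin n → G) : Fin n → Bool := fun i => decide (x i ≠ 0)

/-- a Boolean function as a function on words -/
def lift (y0 y1 : Γ) (g : (Fin n → Bool) → Bool) (x : Fin n → G) : Γ :=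
  if g (bits x) then y1 else y0

theorem quant_of_qdist (hn : 1 ≤ n) (y0 y1 : Γ) {g : (Fin n → Bool) → Bool} {T : ℕ} {s : ℝ}
    {μ : (Fin n → Bool) → Bool → ℝ} (hμ : QDist T μ) (h : ∀ u, s ≤ μ u (g u)) :
    QuantComputes s (lift (G := G) y0 y1 g) (2 * T) := by
  classical
  obtain ⟨β, _, _, V, b0, out, ⟨U, q, hU, hV⟩, hout⟩ := hμ
  let i0 : Fin n := ⟨0, hn⟩
  let idx : ℕ → β → Fin n := fun t z => (q t z).getD i0
  let e0 : β → Fin n × G × β := fun z => (i0, 0, z)
  have he0 : Function.Injective e0 := fun z z' h => by simpa [e0] using h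
  let σ : ℕ → Fin n × G × β → Fin n × G × β := fun t p =>
    (Equiv.swap i0 (idx t p.2.2) p.1, p.2.1, p.2.2)
  have hσσ : ∀ t p, σ t (σ t p) = p := fun t p => by simp [σ]
  have hσ : ∀ t, Function.Injective (σ t) := fun t => Function.Involutive.injective (hσσ t)
  let ng : Fin n × G × β → Fin n × G × β := fun p => (p.1, -p.2.1, p.2.2)
  have hng : Function.Injective ng := Function.Involutive.injective fun p => by simp [ng]
  let d : ℕ → Fin n × G × β → ℂ := fun t p => if (q t p.2.2).isSome ∧ p.2.1 ≠ 0 then -1 else 1
  have hd : ∀ t, diagonal (d t) ∈ Matrix.unitaryGroup (Fin n × G × β) ℂ := by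
    intro t
    rw [Matrix.mem_unitaryGroup_iff, Matrix.star_eq_conjTranspose, diagonal_conjTranspose,
      diagonal_mul_diagonal, ← diagonal_one]
    congr 1
    funext p
    simp only [d, Pi.star_apply]
    split_ifs <;> simp
  let U' : ℕ → Matrix (Fin n × G × β) (Fin n × G × β) ℂ := fun k =>
    if k % 2 = 1 then embM ng * diagonal (d (k / 2))
    else embM (σ (k / 2)) * extM e0 (U (k / 2)) * if k = 0 then 1 else embM (σ (k / 2 - 1))
  have hU' : ∀ k, U' k ∈ Matrix.unitaryGroup (Fin n × G × β) ℂ := by
    intro k
    simp only [U']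
    split_ifs
    · exact mul_mem (embM_mem hng) (hd _)
    · exact mul_mem (mul_mem (embM_mem (hσ _)) (extM_mem he0 (hU _))) (one_mem _)
    · exact mul_mem (mul_mem (embM_mem (hσ _)) (extM_mem he0 (hU _))) (embM_mem (hσ _))
  refine ⟨β, inferInstance, inferInstance, U', e0 b0, fun p => if out p.2.2 then y1 else y0, hU',
    fun x => ?_⟩
  have hq : ∀ t, oracle β x * (embM ng * diagonal (d t)) * oracle β x * embM (σ t ∘ e0) =
      embM (σ t ∘ e0) * phaseQ (q t) (bits x) := by
    intro t
    rw [oracle_eq_embM]
    simp only [Matrix.mul_assoc]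
    rw [embM_mul, diagonal_embM, ← Matrix.mul_assoc, ← Matrix.mul_assoc, embM_mul, embM_mul,
      phaseQ]
    congr 2
    · funext z
      simp [σ, e0, ng]
    · funext z
      simp only [d, σ, e0, idx, bits, Function.comp, Equiv.swap_apply_left, zero_add]
      cases q t z <;> simp
  have key : ∀ t, state (fun _ => oracle β x) U' (e0 b0) (2 * t) =
      (embM (σ t ∘ e0) * seqP U q (bits x) t).mulVec (Pi.single b0 1) := by
    intro t
    induction t with
    | zero =>
      simp only [state_zero, U', seqP, Nat.mul_zero, Nat.zero_mod, Nat.zero_div, if_true,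
        Matrix.mul_one, zero_ne_one, if_false]
      rw [← embM_single e0 b0, mulVec_mulVec, Matrix.mul_assoc, extM_mul_embM he0,
        ← Matrix.mul_assoc, embM_mul]
    | succ t ih =>
      have e1 : U' (2 * t + 1) = embM ng * diagonal (d t) := by
        simp only [U']
        rw [if_pos (by omega), show (2 * t + 1) / 2 = t by omega]
      have e2 : U' (2 * t + 1 + 1) = embM (σ (t + 1)) * extM e0 (U (t + 1)) * embM (σ t) := by
        simp only [U']
        rw [if_neg (by omega), if_neg (by omega), show (2 * t + 1 + 1) / 2 = t + 1 by omega,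
          Nat.add_sub_cancel]
      rw [show 2 * (t + 1) = 2 * t + 1 + 1 by ring]
      simp only [state_succ]
      rw [ih, e1, e2]
      simp only [mulVec_mulVec]
      congr 1
      have e3 : embM (σ t) * embM (σ t ∘ e0) = embM e0 := by
        rw [embM_mul]
        congr 1
        funext z
        exact hσσ t _
      calc _ = embM (σ (t + 1)) * extM e0 (U (t + 1)) * embM (σ t) *
            (oracle β x * (embM ng * diagonal (d t)) * oracle β x * embM (σ t ∘ e0)) *
            seqP U q (bits x) t := by simp only [Matrix.mul_assoc]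
        _ = embM (σ (t + 1)) * (extM e0 (U (t + 1)) * (embM (σ t) * embM (σ t ∘ e0))) *
            phaseQ (q t) (bits x) * seqP U q (bits x) t := by
          rw [hq]
          simp only [Matrix.mul_assoc]
        _ = _ := by
          rw [e3, extM_mul_embM he0, ← Matrix.mul_assoc, embM_mul]
          simp only [seqP, Matrix.mul_assoc]
  have hinj : Function.Injective (σ T ∘ e0) := (hσ T).comp he0
  refine (h (bits x)).trans ?_
  rw [hout, key, hV]
  refine le_trans ?_ (Finset.sum_le_sum_of_subset_of_nonneg
    (Finset.subset_univ (Finset.univ.image (σ T ∘ e0))) fun p _ _ => by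
      split_ifs <;> positivity)
  rw [Finset.sum_image fun a _ b _ hab => hinj hab]
  refine Finset.sum_le_sum fun z _ => ?_
  have e4 : (embM (σ T ∘ e0) * seqP U q (bits x) T).mulVec (Pi.single b0 1) ((σ T ∘ e0) z) =
      seqP U q (bits x) T z b0 := by
    rw [mulVec_single_apply', Matrix.mul_apply, Finset.sum_eq_single z]
    · simp [embM_apply]
    · intro c _ hc
      rw [embM_apply, if_neg (fun h => hc (hinj h).symm), zero_mul]
    · intro h
      exact absurd (Finset.mem_univ _) h
  rw [e4]
  by_cases hz : out z = g (bits x)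
  · rw [if_pos hz, if_pos]
    change (if out z then y1 else y0) = lift y0 y1 g x
    rw [hz, lift]
  · rw [if_neg hz]
    split_ifs <;> positivity

end Vale.Agent.N362
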